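import Mathlib

/-!
Basic definitions for projection bodies in dimension `n + 1`.
-/

open MeasureTheory Set Pointwise

namespace Vale.Agent.P237.Gen

noncomputable section

variable {n : ℕ}

/-- The segment `[-u, u]`. -/
def seg (u : Fin (n + 1) → ℝ) : Set (Fin (n + 1) → ℝ) := (fun t : ℝ => t • u) '' Icc (-1) 1

/-- The support function of the zonotope `Σ [-s i, s i]`. -/
def supp {ι : Type} [Fintype ι] (s : ι → Fin (n + 1) → ℝ) (u : Fin (n + 1) → ℝ) : ℝ :=
  ∑ i, |u ⬝ᵥ s i|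

/-- Length of `u` times the volume of the projection along `u`. -/
def pA (K : Set (Fin (n + 1) → ℝ)) (u : Fin (n + 1) → ℝ) : ℝ :=
  (volume.real (K + seg u) - volume.real K) / 2

/-- A convex body with the origin in its interior. -/
def Body (K : Set (Fin (n + 1) → ℝ)) : Prop :=
  Convex ℝ K ∧ IsCompact K ∧ (0 : Fin (n + 1) → ℝ) ∈ interior K

/-- The zonotope `Σ [-s i, s i]`. -/
def zon {ι : Type} [Fintype ι] (s : ι → Fin (n + 1) → ℝ) : Set (Fin (n + 1) → ℝ) :=
  (fun c : ι → ℝ => ∑ i, c i • s i) '' univ.pi fun _ => Icc (-1) 1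

/-- `V₁(K, zon s)` in dimension `n + 1`. -/
def mixed {ι : Type} [Fintype ι] (K : Set (Fin (n + 1) → ℝ)) (s : ι → Fin (n + 1) → ℝ) : ℝ :=
  2 / ((n : ℝ) + 1) * ∑ i, pA K (s i)

/-- The first coordinate vector. -/
def e0 : Fin (n + 1) → ℝ := Pi.single 0 1

end

end Vale.Agent.P237.Gen
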