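import Vale.Agent.P237.Gen.Zonotope
import Vale.Agent.P237.Gen.Approx
import Vale.Agent.P237.Gen.Mixed

/-!
A lower bound for the projection ratio of zonotopes gives the same bound for every convex body.
-/

open MeasureTheory Set Pointwise Filter Topology

namespace Vale.Agent.P237.Gen

open Mx

noncomputable section

variable {n : ℕ} {ι : Type} [Fintype ι]

/-- The projection body of `K`. -/
def piBody (K : Set (Fin (n + 1) → ℝ)) : Set (Fin (n + 1) → ℝ) := {x | ∀ u, u ⬝ᵥ x ≤ pA K u}

theorem isCompact_piBody (K : Set (Fin (n + 1) → ℝ)) : IsCompact (piBody K) := by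
  refine (isCompact_Icc (a := (fun i => -pA K (-(Pi.single i 1)) : Fin (n + 1) → ℝ))
    (b := fun i => pA K (Pi.single i 1))).of_isClosed_subset ?_ fun x hx => ?_
  · have h : piBody K = ⋂ u, {x : Fin (n + 1) → ℝ | u ⬝ᵥ x ≤ pA K u} := by ext x; simp [piBody]
    rw [h]
    exact isClosed_iInter fun u => isClosed_le (by unfold dotProduct; fun_prop) continuous_const
  · refine ⟨fun i => ?_, fun i => ?_⟩
    · have := hx (-(Pi.single i 1)); simp [neg_dotProduct, single_dotProduct] at this; simp; linarith
    · simpa [single_dotProduct] using hx (Pi.single i 1)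

theorem supp_hom (s : ι → Fin (n + 1) → ℝ) (c : ℝ) (u : Fin (n + 1) → ℝ) :
    supp s (c • u) = |c| * supp s u := by
  simp [supp, smul_dotProduct, abs_mul, Finset.mul_sum]

theorem zon_pos_of_supp (s : ι → Fin (n + 1) → ℝ) (h : ∀ u ≠ 0, 0 < supp s u) :
    0 < volume.real (zon s) := by
  have hc : Continuous (supp s) := by unfold supp dotProduct; fun_prop
  obtain ⟨w, hw, hmin⟩ := (isCompact_sphere (0 : Fin (n + 1) → ℝ) 1).exists_isMinOn
    (NormedSpace.sphere_nonempty.2 zero_le_one) hc.continuousOn
  have hw0 : w ≠ 0 := by intro h0; simp [h0] at hw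
  have hr := h w hw0
  set r := supp s w / ((n : ℝ) + 1) with hrd
  have hr0 : 0 < r := by positivity
  have hsub : Metric.ball (0 : Fin (n + 1) → ℝ) r ⊆ zon s := by
    intro x hx
    refine subset_zon_of_dot_le s fun u => ?_
    rcases eq_or_ne u 0 with rfl | hu
    · simp [supp]
    have hn : 0 < ‖u‖ := norm_pos_iff.2 hu
    have hm : supp s w ≤ supp s (‖u‖⁻¹ • u) := hmin (by simp [norm_smul, hn.ne'])
    rw [supp_hom, abs_of_pos (inv_pos.2 hn), le_inv_mul_iff₀ hn] at hm
    have hxr : ‖x‖ ≤ r := (mem_ball_zero_iff.1 hx).le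
    calc u ⬝ᵥ x ≤ ∑ i, ‖u‖ * r := Finset.sum_le_sum fun i _ => (le_abs_self _).trans (by
            rw [abs_mul]
            exact mul_le_mul (norm_le_pi_norm u i) ((norm_le_pi_norm x i).trans hxr) (abs_nonneg _)
              (norm_nonneg _))
      _ = ‖u‖ * supp s w := by rw [hrd]; simp; field_simp
      _ ≤ supp s u := hm
  exact lt_of_lt_of_le (ENNReal.toReal_pos (Metric.measure_ball_pos volume _ hr0).ne'
    measure_ball_lt_top.ne) (measureReal_mono hsub (zon_compact s).measure_ne_top)

/-- From zonotopes to all bodies. -/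
theorem body_of_zonotope {c : ℝ}
    (h : ∀ (ι : Type) [Fintype ι] (s : ι → Fin (n + 1) → ℝ), 0 < volume.real (zon s) →
      c * volume.real (zon s) ^ n ≤ volume.real (zon (piGen s)))
    {K : Set (Fin (n + 1) → ℝ)} (hK : Body K) :
    c * volume.real K ^ n ≤ volume.real (piBody K) := by
  rcases le_or_gt c 0 with hc0 | hc0
  · exact le_trans (mul_nonpos_of_nonpos_of_nonneg hc0 (by positivity)) measureReal_nonneg
  have key : ∀ η : ℝ, 0 < η →
      c * volume.real K ^ n ≤ (1 + η) ^ (2 * (n + 1)) * volume.real (piBody K) := by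
    intro η hη
    obtain ⟨m, s, hs⟩ := exists_zonotope_approx hK hη
    have hη1 : 0 < 1 + η := by linarith
    have hpos : 0 < volume.real (zon s) := zon_pos_of_supp s fun u hu =>
      (pos_iff_pos_of_mul_pos (lt_of_lt_of_le (pA_pos hK hu) (hs u).2)).1 hη1
    set Z := volume.real (zon s) with hZ
    have hmix : mixed K (piGen s) ≤ (1 + η) * Z := by
      calc mixed K (piGen s) ≤ 2 / ((n : ℝ) + 1) * ∑ i, (1 + η) * supp s (piGen s i) := by
            unfold mixed; gcongr with i; exact (hs _).2
        _ = (1 + η) * Z := by rw [← Finset.mul_sum, supp_symm (piGen s) s, hZ, vol_zon]; ring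
    have h1 : volume.real K ^ n * (c * Z ^ n) ≤ ((1 + η) * Z) ^ (n + 1) :=
      le_trans (mul_le_mul_of_nonneg_left (h _ s hpos) (by positivity))
        ((minkowski hK (piGen s)).trans (pow_le_pow_left₀ (mixed_nonneg hK _) hmix _))
    have h2 : c * volume.real K ^ n ≤ (1 + η) ^ (n + 1) * Z := by
      refine le_of_mul_le_mul_right ?_ (pow_pos hpos n)
      calc c * volume.real K ^ n * Z ^ n = volume.real K ^ n * (c * Z ^ n) := by ring
        _ ≤ ((1 + η) * Z) ^ (n + 1) := h1
        _ = (1 + η) ^ (n + 1) * Z * Z ^ n := by rw [mul_pow, pow_succ Z n]; ring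
    have hsub : zon s ⊆ (1 + η) • piBody K := fun x hx => by
      rw [mem_smul_set_iff_inv_smul_mem₀ hη1.ne']
      intro u
      rw [dotProduct_smul, smul_eq_mul, inv_mul_le_iff₀ hη1]
      exact (dot_le_supp s u hx).trans (hs u).1
    have h3 : Z ≤ (1 + η) ^ (n + 1) * volume.real (piBody K) := by
      have e : volume.real ((1 + η) • piBody K) = (1 + η) ^ (n + 1) * volume.real (piBody K) := by
        rw [measureReal_def, Measure.addHaar_smul_of_nonneg volume hη1.le, ENNReal.toReal_mul,
          ENNReal.toReal_ofReal (by positivity), ← measureReal_def]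
        simp
      exact e ▸ measureReal_mono hsub ((isCompact_piBody K).smul _).measure_ne_top
    calc c * volume.real K ^ n ≤ (1 + η) ^ (n + 1) * Z := h2
      _ ≤ (1 + η) ^ (n + 1) * ((1 + η) ^ (n + 1) * volume.real (piBody K)) := by gcongr
      _ = _ := by ring
  have hlim : Tendsto (fun η : ℝ => (1 + η) ^ (2 * (n + 1)) * volume.real (piBody K)) (𝓝[>] 0)
      (𝓝 (volume.real (piBody K))) := by
    have : Continuous fun η : ℝ => (1 + η) ^ (2 * (n + 1)) * volume.real (piBody K) := by fun_prop
    simpa using (this.tendsto 0).mono_left (nhdsWithin_le_nhds (s := Ioi (0:ℝ)))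
  exact ge_of_tendsto hlim (eventually_nhdsWithin_of_forall fun η hη => key η hη)

end

end Vale.Agent.P237.Gen
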