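import Vale.Agent.P237.Gen.Line

/-! `pA` against the Euclidean orthogonal projection, in every dimension. -/

open MeasureTheory Set Pointwise Filter Topology

namespace Vale.Agent.P237.Gen

noncomputable section

variable {n : ℕ}

/-- `pA` is the volume of the orthogonal projection for unit vectors. -/
theorem pA_eq_proj {K : Set (EuclideanSpace ℝ (Fin (n + 1)))} (hc : Convex ℝ K) (hk : IsCompact K)
    {u : EuclideanSpace ℝ (Fin (n + 1))} (hu : ‖u‖ = 1) :
    pA (WithLp.ofLp '' K) (WithLp.ofLp u) =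
      volume.real ((Submodule.orthogonalProjectionOnto (ℝ ∙ u)ᗮ) '' K) := by
  haveI : Fact (Module.finrank ℝ (EuclideanSpace ℝ (Fin (n + 1))) = n + 1) := ⟨by simp⟩
  have hu0 : u ≠ 0 := by rintro rfl; simp at hu
  set P := Submodule.orthogonalProjectionOnto (ℝ ∙ u)ᗮ with hP
  set b := (OrthonormalBasis.fromOrthogonalSpanSingleton (𝕜 := ℝ) n hu0).repr with hb
  let F : EuclideanSpace ℝ (Fin (n + 1)) →ₗ[ℝ] EuclideanSpace ℝ (Fin (n + 1)) :=
    { toFun := fun x => WithLp.toLp 2 (Fin.cons (inner ℝ u x) (WithLp.ofLp (b (P x))))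
      map_add' := fun x y => by
        ext i
        refine Fin.cases ?_ (fun j => ?_) i <;> simp [inner_add_right]
      map_smul' := fun r x => by
        ext i
        refine Fin.cases ?_ (fun j => ?_) i <;> simp [real_inner_smul_right] }
  have hnorm : ∀ x, ‖F x‖ = ‖x‖ := by
    intro x
    rw [← sq_eq_sq₀ (norm_nonneg _) (norm_nonneg _), EuclideanSpace.real_norm_sq_eq,
      Fin.sum_univ_succ]
    have h1 : ∑ j : Fin n, (F x).ofLp j.succ ^ 2 = ‖P x‖ ^ 2 := by
      rw [← b.norm_map, EuclideanSpace.real_norm_sq_eq]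
      simp [F]
    rw [h1, (ℝ ∙ u).norm_sq_eq_add_norm_sq_projection x]
    have h2 : ‖(ℝ ∙ u).orthogonalProjectionOnto x‖ = |inner ℝ u x| := by
      show ‖(ℝ ∙ u).starProjection x‖ = _
      rw [Submodule.starProjection_singleton, norm_smul, hu]
      simp
    rw [h2, sq_abs]
    simp [F, hP]
  let Ψ := (LinearIsometry.mk F hnorm).toLinearIsometryEquiv rfl
  let w := WithLp.linearEquiv 2 ℝ (Fin (n + 1) → ℝ)
  let T : (Fin (n + 1) → ℝ) ≃ₗ[ℝ] (Fin (n + 1) → ℝ) := (w.symm.trans Ψ.toLinearEquiv).trans w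
  have hΨ : ∀ x, Ψ x = F x := fun x => rfl
  have hT : ∀ x, T (WithLp.ofLp x) = WithLp.ofLp (F x) := fun x => rfl
  have hvol : ∀ A : Set (Fin (n + 1) → ℝ), IsCompact A → volume.real (T '' A) = 1 * volume.real A := by
    intro A hA
    have hmp : MeasurePreserving T volume volume :=
      ((PiLp.volume_preserving_ofLp (Fin (n + 1))).comp Ψ.measurePreserving).comp
        (PiLp.volume_preserving_toLp (Fin (n + 1)))
    have hTA : MeasurableSet (T '' A) :=
      (hA.image T.toContinuousLinearEquiv.continuous).measurableSet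
    rw [one_mul]
    simp only [measureReal_def]
    rw [← hmp.measure_preimage hTA.nullMeasurableSet, preimage_image_eq _ T.injective]
  have hTu : T (WithLp.ofLp u) = e0 := by
    have hPu : P u = 0 := Submodule.orthogonalProjectionOnto_orthogonalComplement_singleton_eq_zero u
    rw [hT]
    funext i
    refine Fin.cases ?_ (fun j => ?_) i <;>
      simp [F, e0, hPu, hu, Fin.succ_ne_zero]
  have hKc : Convex ℝ (WithLp.ofLp '' K) := hc.linear_image w.toLinearMap
  have hKk : IsCompact (WithLp.ofLp '' K) := hk.image (PiLp.continuous_ofLp 2 _)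
  have h := pA_image (T : (Fin (n + 1) → ℝ) →ₗ[ℝ] (Fin (n + 1) → ℝ)) hKk (WithLp.ofLp u) hvol
  simp only [LinearEquiv.coe_coe, hTu, one_mul] at h
  rw [← h, pA_e0 (S := T '' (WithLp.ofLp '' K)) (hKc.linear_image T.toLinearMap)
    (hKk.image T.toContinuousLinearEquiv.continuous)]
  have himg : shadow (T '' (WithLp.ofLp '' K)) = WithLp.ofLp '' (b '' (P '' K)) := by
    simp only [shadow, image_image]
    refine image_congr fun x _ => ?_
    rw [hT]
    funext j
    simp [F, Fin.tail]
  have hmb : MeasurePreserving (fun z : (ℝ ∙ u)ᗮ => WithLp.ofLp (b z)) volume volume :=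
    (PiLp.volume_preserving_ofLp (Fin n)).comp b.measurePreserving
  rw [himg, image_image, measureReal_def, measureReal_def]
  congr 1
  have hPK : MeasurableSet ((fun z : (ℝ ∙ u)ᗮ => WithLp.ofLp (b z)) '' (P '' K)) :=
    ((hk.image P.continuous).image
      ((PiLp.continuous_ofLp 2 _).comp b.continuous)).measurableSet
  rw [← hmb.measure_preimage hPK.nullMeasurableSet,
    preimage_image_eq _ (fun a c h => b.injective (WithLp.ofLp_injective 2 h))]

end

end Vale.Agent.P237.Gen
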