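import Vale.Agent.P237.Gen.Defs
import Vale.Agent.P237.Gen.Zonotope.Volume

/-!
Zonotopes and their projection bodies in every dimension.
-/

open MeasureTheory Set Pointwise Matrix

namespace Vale.Agent.P237.Gen

noncomputable section

variable {n : ℕ} {ι κ : Type} [Fintype ι] [Fintype κ]

/-- The generalised cross product of `n` vectors in dimension `n + 1`. -/
def wedge (v : Fin n → Fin (n + 1) → ℝ) : Fin (n + 1) → ℝ := fun j =>
  (-1) ^ (j : ℕ) * ((Matrix.of v).submatrix id j.succAbove).det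

/-- Generators of the projection body of a zonotope. -/
def piGen (s : ι → Fin (n + 1) → ℝ) : (Fin n → ι) → Fin (n + 1) → ℝ :=
  fun f => coef n • wedge (s ∘ f)

theorem dot_wedge (x : Fin (n + 1) → ℝ) (v : Fin n → Fin (n + 1) → ℝ) :
    x ⬝ᵥ wedge v = Matrix.det (Matrix.of (Fin.cons x v)) := by
  rw [Matrix.det_succ_row_zero]
  refine Finset.sum_congr rfl fun j _ => ?_
  have e : (Matrix.of (Fin.cons x v)).submatrix Fin.succ j.succAbove
      = (Matrix.of v).submatrix id j.succAbove := by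
    ext i k
    simp
  rw [e]
  simp only [wedge, Matrix.of_apply, Fin.cons_zero]
  ring

theorem abs_dot_wedge (x : Fin (n + 1) → ℝ) (v : Fin n → Fin (n + 1) → ℝ) :
    |x ⬝ᵥ wedge v| = adet (Fin.cons x v) := by
  rw [dot_wedge, adet]

theorem zon_convex (s : ι → Fin (n + 1) → ℝ) : Convex ℝ (zon s) := Zono.box_convex s

theorem zon_compact (s : ι → Fin (n + 1) → ℝ) : IsCompact (zon s) := Zono.box_compact s

theorem zon_neg_mem (s : ι → Fin (n + 1) → ℝ) {x : Fin (n + 1) → ℝ} (hx : x ∈ zon s) :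
    -x ∈ zon s := by
  obtain ⟨c, hc, rfl⟩ := hx
  refine ⟨-c, fun i _ => ?_, by simp⟩
  have := hc i trivial
  exact ⟨by simp only [Pi.neg_apply]; linarith [this.2], by simp only [Pi.neg_apply]; linarith [this.1]⟩

theorem zon_body (s : ι → Fin (n + 1) → ℝ) (h : 0 < volume.real (zon s)) : Body (zon s) := by
  refine ⟨zon_convex s, zon_compact s, ?_⟩
  obtain ⟨x, hx⟩ : (interior (zon s)).Nonempty := by
    rw [nonempty_iff_ne_empty]
    intro he
    have hf : frontier (zon s) = zon s := by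
      rw [(zon_compact s).isClosed.frontier_eq, he, sdiff_empty]
    have h0 := (zon_convex s).addHaar_frontier (volume : Measure (Fin (n + 1) → ℝ))
    rw [hf] at h0
    simp [measureReal_def, h0] at h
  have hneg : -x ∈ interior (zon s) := by
    have e : (Homeomorph.neg (Fin (n + 1) → ℝ)) ⁻¹' zon s = zon s := by
      ext y
      exact ⟨fun hy => by simpa using zon_neg_mem s hy, fun hy => zon_neg_mem s hy⟩
    have h2 := (Homeomorph.neg (Fin (n + 1) → ℝ)).preimage_interior (zon s)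
    rw [e] at h2
    rw [← h2]
    show -(-x) ∈ interior (zon s)
    simpa using hx
  have := (zon_convex s).interior hx hneg (show (0:ℝ) ≤ 1 / 2 by norm_num)
    (show (0:ℝ) ≤ 1 / 2 by norm_num) (by norm_num)
  simpa using this

theorem dot_le_supp (s : ι → Fin (n + 1) → ℝ) (u : Fin (n + 1) → ℝ) {x : Fin (n + 1) → ℝ}
    (hx : x ∈ zon s) : u ⬝ᵥ x ≤ supp s u := by
  obtain ⟨c, hc, rfl⟩ := hx
  simp only [dotProduct_sum, dotProduct_smul, smul_eq_mul]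
  refine Finset.sum_le_sum fun i _ => (le_abs_self _).trans ?_
  rw [abs_mul]
  exact mul_le_of_le_one_left (abs_nonneg _) (abs_le.2 (hc i trivial))

theorem exists_dot_eq_supp (s : ι → Fin (n + 1) → ℝ) (u : Fin (n + 1) → ℝ) :
    ∃ x ∈ zon s, u ⬝ᵥ x = supp s u := by
  refine ⟨_, ⟨fun i => (SignType.sign (u ⬝ᵥ s i) : ℝ), fun i _ => ?_, rfl⟩, ?_⟩
  · rcases lt_trichotomy (u ⬝ᵥ s i) 0 with h | h | h <;> simp [h]
  · simp only [dotProduct_sum, dotProduct_smul, smul_eq_mul, sign_mul_self]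
    rfl

theorem subset_zon_of_dot_le (s : ι → Fin (n + 1) → ℝ) {x : Fin (n + 1) → ℝ}
    (h : ∀ u, u ⬝ᵥ x ≤ supp s u) : x ∈ zon s := by
  by_contra hx
  obtain ⟨f, c, hf, hfx⟩ := geometric_hahn_banach_closed_point (zon_convex s)
    (zon_compact s).isClosed hx
  set u : Fin (n + 1) → ℝ := fun i => f (Pi.single i 1) with hu
  have e : ∀ y : Fin (n + 1) → ℝ, f y = u ⬝ᵥ y := by
    intro y
    have hy : y = ∑ i, y i • (Pi.single i 1 : Fin (n + 1) → ℝ) := pi_eq_sum_univ' y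
    conv_lhs => rw [hy]
    simp [hu, dotProduct, map_sum, mul_comm]
  obtain ⟨y, hy, hyu⟩ := exists_dot_eq_supp s u
  have h1 := hf y hy
  rw [e, hyu] at h1
  rw [e] at hfx
  linarith [h u]

theorem supp_nonneg (s : ι → Fin (n + 1) → ℝ) (u : Fin (n + 1) → ℝ) : 0 ≤ supp s u :=
  Finset.sum_nonneg fun _ _ => abs_nonneg _

theorem supp_smul (s : ι → Fin (n + 1) → ℝ) {c : ℝ} (hc : 0 ≤ c) (u : Fin (n + 1) → ℝ) :
    supp (c • s) u = c * supp s u := by
  simp [supp, Finset.mul_sum, dotProduct_smul, abs_mul, abs_of_nonneg hc]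

theorem zon_smul (s : ι → Fin (n + 1) → ℝ) (c : ℝ) : zon (c • s) = c • zon s :=
  (Zono.box_map (LinearMap.lsmul ℝ (Fin (n + 1) → ℝ) c) s).symm

theorem zon_map (s : ι → Fin (n + 1) → ℝ) (T : (Fin (n + 1) → ℝ) →ₗ[ℝ] (Fin (n + 1) → ℝ)) :
    T '' zon s = zon (fun i => T (s i)) :=
  Zono.box_map T s

theorem supp_piGen (s : ι → Fin (n + 1) → ℝ) (u : Fin (n + 1) → ℝ) :
    supp (piGen s) u = coef n * ∑ f : Fin n → ι, adet (Fin.cons u (s ∘ f)) := by
  simp only [supp, piGen, dotProduct_smul, smul_eq_mul, abs_mul, abs_of_pos (coef_pos n),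
    abs_dot_wedge, Finset.mul_sum]

theorem pA_zon (s : ι → Fin (n + 1) → ℝ) (u : Fin (n + 1) → ℝ) :
    pA (zon s) u = supp (piGen s) u := by
  rw [supp_piGen, pA]
  have h : volume.real (zon s + seg u) = volume.real (zon s)
      + 2 * coef n * ∑ f : Fin n → ι, adet (Fin.cons u (s ∘ f)) := volume_add_segm s u
  rw [h]
  ring

theorem vol_zon (s : ι → Fin (n + 1) → ℝ) :
    volume.real (zon s) = 2 / (n + 1) * ∑ i, supp (piGen s) (s i) := by
  have h : volume.real (zon s) = coef (n + 1) * ∑ f : Fin (n + 1) → ι, adet (s ∘ f) :=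
    volume_box (n + 1) ι s
  have hn : (n + 1 : ℝ) ≠ 0 := by positivity
  have hc : coef (n + 1) = 2 / (n + 1) * coef n := by
    rw [div_mul_eq_mul_div, eq_div_iff hn, mul_comm, coef_succ]
  rw [h, hc, sum_tuples_cons (fun f => adet (s ∘ f)), mul_assoc, Finset.mul_sum]
  congr 1
  refine Finset.sum_congr rfl fun i _ => ?_
  rw [supp_piGen]
  congr 1
  refine Finset.sum_congr rfl fun f _ => ?_
  congr 1
  funext j
  refine Fin.cases ?_ (fun k => ?_) j <;> simp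

theorem supp_symm (s : ι → Fin (n + 1) → ℝ) (t : κ → Fin (n + 1) → ℝ) :
    ∑ i, supp t (s i) = ∑ j, supp s (t j) := by
  simp only [supp]
  rw [Finset.sum_comm]
  simp [dotProduct_comm]

/-- The adjoint of a linear map for the dot product. -/
def adj (T : (Fin (n + 1) → ℝ) →ₗ[ℝ] (Fin (n + 1) → ℝ)) :
    (Fin (n + 1) → ℝ) →ₗ[ℝ] (Fin (n + 1) → ℝ) :=
  Matrix.toLin' (LinearMap.toMatrix' T)ᵀ

theorem adj_dot (T : (Fin (n + 1) → ℝ) →ₗ[ℝ] (Fin (n + 1) → ℝ)) (y x : Fin (n + 1) → ℝ) :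
    adj T y ⬝ᵥ x = y ⬝ᵥ T x := by
  rw [adj, Matrix.toLin'_apply, Matrix.mulVec_transpose, ← Matrix.dotProduct_mulVec,
    LinearMap.toMatrix'_mulVec]

theorem det_adj (T : (Fin (n + 1) → ℝ) →ₗ[ℝ] (Fin (n + 1) → ℝ)) :
    LinearMap.det (adj T) = LinearMap.det T := by
  rw [adj, LinearMap.det_toLin', Matrix.det_transpose, LinearMap.det_toMatrix']

theorem adj_eq (T : (Fin (n + 1) → ℝ) ≃ₗ[ℝ] (Fin (n + 1) → ℝ)) (u : Fin (n + 1) → ℝ)
    (j : Fin (n + 1)) :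
    adj (T : (Fin (n + 1) → ℝ) →ₗ[ℝ] (Fin (n + 1) → ℝ)) u j = u ⬝ᵥ T (Pi.single j 1) := by
  have h := adj_dot (T : (Fin (n + 1) → ℝ) →ₗ[ℝ] (Fin (n + 1) → ℝ)) u (Pi.single j 1)
  simpa [dotProduct_single] using h

theorem adj_e0 (T : (Fin (n + 1) → ℝ) ≃ₗ[ℝ] (Fin (n + 1) → ℝ)) :
    adj (T : (Fin (n + 1) → ℝ) →ₗ[ℝ] (Fin (n + 1) → ℝ)) e0 = fun j => T (Pi.single j 1) 0 := by
  funext j
  rw [adj_eq]
  simp [e0]

/-- The inverse adjoint. -/
def coadj (T : (Fin (n + 1) → ℝ) ≃ₗ[ℝ] (Fin (n + 1) → ℝ)) :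
    (Fin (n + 1) → ℝ) →ₗ[ℝ] (Fin (n + 1) → ℝ) :=
  adj (T.symm : (Fin (n + 1) → ℝ) →ₗ[ℝ] (Fin (n + 1) → ℝ))

theorem coadj_dot_map (T : (Fin (n + 1) → ℝ) ≃ₗ[ℝ] (Fin (n + 1) → ℝ)) (y x : Fin (n + 1) → ℝ) :
    coadj T y ⬝ᵥ T x = y ⬝ᵥ x := by
  rw [coadj, adj_dot]
  simp

theorem det_coadj (T : (Fin (n + 1) → ℝ) ≃ₗ[ℝ] (Fin (n + 1) → ℝ)) :
    LinearMap.det (coadj T)
      = (LinearMap.det (T : (Fin (n + 1) → ℝ) →ₗ[ℝ] (Fin (n + 1) → ℝ)))⁻¹ := by
  rw [coadj, det_adj]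
  refine eq_inv_of_mul_eq_one_left ?_
  rw [← LinearMap.det_comp]
  simp

theorem coadj_adj (T : (Fin (n + 1) → ℝ) ≃ₗ[ℝ] (Fin (n + 1) → ℝ)) (y : Fin (n + 1) → ℝ) :
    coadj T (adj (T : (Fin (n + 1) → ℝ) →ₗ[ℝ] (Fin (n + 1) → ℝ)) y) = y := by
  refine dotProduct_eq _ _ fun x => ?_
  rw [coadj, adj_dot, adj_dot]
  simp

theorem wedge_map (T : (Fin (n + 1) → ℝ) ≃ₗ[ℝ] (Fin (n + 1) → ℝ))
    (v : Fin n → Fin (n + 1) → ℝ) :
    wedge (fun i => T (v i))
      = LinearMap.det (T : (Fin (n + 1) → ℝ) →ₗ[ℝ] (Fin (n + 1) → ℝ)) • coadj T (wedge v) := by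
  refine dotProduct_eq _ _ fun x => ?_
  obtain ⟨z, rfl⟩ := T.surjective x
  rw [dotProduct_comm, dot_wedge, smul_dotProduct, coadj_dot_map, dotProduct_comm, dot_wedge,
    smul_eq_mul]
  have e : Matrix.of (Fin.cons (T z) fun i => T (v i))
      = Matrix.of (Fin.cons z v) * (LinearMap.toMatrix'
          (T : (Fin (n + 1) → ℝ) →ₗ[ℝ] (Fin (n + 1) → ℝ)))ᵀ := by
    ext i j
    rw [Matrix.mul_apply]
    have h : ∀ a, T a j = ∑ k, a k * LinearMap.toMatrix'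
        (T : (Fin (n + 1) → ℝ) →ₗ[ℝ] (Fin (n + 1) → ℝ)) j k := fun a => by
      rw [← LinearEquiv.coe_coe T, ← LinearMap.toMatrix'_mulVec _ a]
      simp [Matrix.mulVec, dotProduct, mul_comm]
    refine Fin.cases ?_ (fun i => ?_) i
    · simpa [-LinearMap.toMatrix'_apply] using h z
    · simpa [-LinearMap.toMatrix'_apply] using h (v i)
  rw [e, Matrix.det_mul, Matrix.det_transpose, LinearMap.det_toMatrix', mul_comm]

omit [Fintype ι] in
theorem piGen_map (s : ι → Fin (n + 1) → ℝ) (T : (Fin (n + 1) → ℝ) ≃ₗ[ℝ] (Fin (n + 1) → ℝ)) :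
    piGen (fun i => T (s i)) = fun f =>
      (LinearMap.det (T : (Fin (n + 1) → ℝ) →ₗ[ℝ] (Fin (n + 1) → ℝ)) • coadj T) (piGen s f) := by
  funext f
  simp only [piGen, Function.comp_def, LinearMap.smul_apply, map_smul]
  rw [wedge_map, smul_comm]

theorem supp_map (s : ι → Fin (n + 1) → ℝ) (T : (Fin (n + 1) → ℝ) ≃ₗ[ℝ] (Fin (n + 1) → ℝ))
    (u : Fin (n + 1) → ℝ) :
    supp (fun i => T (s i)) u
      = supp s (adj (T : (Fin (n + 1) → ℝ) →ₗ[ℝ] (Fin (n + 1) → ℝ)) u) := by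
  refine Finset.sum_congr rfl fun i _ => ?_
  rw [adj_dot]
  simp

theorem supp_piGen_piGen_map (s : ι → Fin (n + 1) → ℝ)
    (T : (Fin (n + 1) → ℝ) ≃ₗ[ℝ] (Fin (n + 1) → ℝ)) (u : Fin (n + 1) → ℝ) :
    supp (piGen (piGen fun i => T (s i))) u =
      |LinearMap.det (T : (Fin (n + 1) → ℝ) →ₗ[ℝ] (Fin (n + 1) → ℝ))| ^ n
        / |LinearMap.det (T : (Fin (n + 1) → ℝ) →ₗ[ℝ] (Fin (n + 1) → ℝ))| *
        supp (piGen (piGen s)) (adj (T : (Fin (n + 1) → ℝ) →ₗ[ℝ] (Fin (n + 1) → ℝ)) u) := by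
  set d := LinearMap.det (T : (Fin (n + 1) → ℝ) →ₗ[ℝ] (Fin (n + 1) → ℝ)) with hd
  rw [piGen_map, supp_piGen, supp_piGen, Finset.mul_sum, Finset.mul_sum, Finset.mul_sum]
  refine Finset.sum_congr rfl fun F _ => ?_
  set w := adj (T : (Fin (n + 1) → ℝ) →ₗ[ℝ] (Fin (n + 1) → ℝ)) u with hw
  have e : (Fin.cons u ((fun f => (d • coadj T) (piGen s f)) ∘ F) :
      Fin (n + 1) → Fin (n + 1) → ℝ) = fun i =>
        (Fin.cons 1 fun _ => d : Fin (n + 1) → ℝ) i •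
          coadj T ((Fin.cons w (piGen s ∘ F) : Fin (n + 1) → Fin (n + 1) → ℝ) i) := by
    funext i
    refine Fin.cases ?_ (fun j => ?_) i
    · simp [hw, coadj_adj]
    · simp
  have e2 : ∀ (r : Fin (n + 1) → ℝ) (M : Fin (n + 1) → Fin (n + 1) → ℝ),
      adet (fun i => r i • M i) = |∏ i, r i| * adet M := fun r M => by
    rw [adet, adet, ← abs_mul, ← Matrix.det_mul_column]
    rfl
  rw [e, e2, adet_map, det_coadj, ← hd, Fin.prod_cons, Finset.prod_const, Finset.card_univ,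
    Fintype.card_fin, one_mul, abs_pow, abs_inv]
  ring

theorem vol_map (K : Set (Fin (n + 1) → ℝ)) (T : (Fin (n + 1) → ℝ) →ₗ[ℝ] (Fin (n + 1) → ℝ)) :
    volume.real (T '' K) = |LinearMap.det T| * volume.real K := by
  rw [measureReal_def, measureReal_def, Measure.addHaar_image_linearMap, ENNReal.toReal_mul,
    ENNReal.toReal_ofReal (abs_nonneg _)]

theorem vol_piGen_map (s : ι → Fin (n + 1) → ℝ)
    (T : (Fin (n + 1) → ℝ) ≃ₗ[ℝ] (Fin (n + 1) → ℝ)) :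
    volume.real (zon (piGen fun i => T (s i))) =
      |LinearMap.det (T : (Fin (n + 1) → ℝ) →ₗ[ℝ] (Fin (n + 1) → ℝ))| ^ n
        * volume.real (zon (piGen s)) := by
  set d := LinearMap.det (T : (Fin (n + 1) → ℝ) →ₗ[ℝ] (Fin (n + 1) → ℝ)) with hd
  have hd0 : |d| ≠ 0 := abs_ne_zero.2 (LinearEquiv.isUnit_det' T).ne_zero
  rw [piGen_map, ← zon_map, vol_map, LinearMap.det_smul, det_coadj, ← hd, Module.finrank_fin_fun,
    abs_mul, abs_pow, abs_inv, pow_succ]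
  field_simp

end

end Vale.Agent.P237.Gen
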