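import Vale.Agent.P237.Gen.Contact.Main
import Vale.Agent.P237.Gen.Contact.John

/-!
The contact bound of the induction, given a one-variable inequality for profiles.
-/

namespace Vale.Agent.P237.Gen

open MeasureTheory Set Metric Filter
open scoped RealInnerProductSpace
open Contact

noncomputable section

variable {n : ℕ}

/-- A slice bound at some contact in John position gives the contact bound. -/
theorem contactBound_of_slice {k : ℝ}
    (hS : ∀ K : Set (Contact.E n), InJohn K → ∃ b : OrthonormalBasis (Fin (n + 1)) ℝ (Contact.E n),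
      (∀ x ∈ K, |⟪b 0, x⟫| ≤ 1) ∧
        k * volume.real K ^ (n - 1) ≤ (∫ t, slArea K b t ^ (((n : ℝ) - 1) / n)) ^ n) :
    ContactBound n k := by
  intro X hX hs
  obtain ⟨A, hJ⟩ := exists_johnPosition hX hs
  obtain ⟨b, hb, hG⟩ := hS _ hJ
  let C : (Fin (n + 1) → ℝ) ≃ₗ[ℝ] Contact.E n :=
    (WithLp.linearEquiv 2 ℝ (Fin (n + 1) → ℝ)).symm.trans b.repr.symm.toLinearEquiv
  refine ⟨A.symm.trans C.symm, ?_⟩
  have himg : (A.symm.trans C.symm) '' X = coords b ⁻¹' (A ⁻¹' X) := by
    rw [LinearEquiv.image_eq_preimage_symm]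
    rfl
  rw [himg]
  refine ⟨fun x hx => hJ.ball ?_, fun x hx i => ?_, 1, one_pos, fun x hx => ?_, ?_⟩
  · rw [mem_closedBall_zero_iff, ← sq_le_one_iff₀ (norm_nonneg _), norm_coords_sq]
    exact hx
  · rw [← repr_coords b x i]
    refine (abs_real_inner_le_norm _ _).trans ?_
    rw [b.orthonormal.1, one_mul]
    exact hJ.norm_le hx
  · rw [← repr_coords b x 0]
    exact (le_abs_self _).trans (hb _ hx)
  · rw [mul_one, measureReal_def,
      (measurePreserving_coords b).measure_preimage_emb (measurableEmbedding_coords b)]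
    exact hG

/-- The contact bound from an inequality for profiles passing every gradient test. -/
theorem contactBound_of_grad (hn : 2 ≤ n) {k : ℝ}
    (hL : ∀ f, Adm f → 0 < pw n f → GradOK n f → k * pw n f ^ (n - 1) ≤ 2 * pw (n - 1) f ^ n) :
    ContactBound n k := by
  refine contactBound_of_slice fun K hJ => ?_
  obtain ⟨b, hb, hA, hW, hQ⟩ := exists_contact_grad (show n ≠ 0 by omega) hJ
  exact ⟨b, hb, slice_of_profile hn hJ hb (hL _ hA hW hQ)⟩

/-- The sharp contact bound from a profile inequality under a combination of the averaged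
constraints. -/
theorem sharpContact_of_profile (hn : 2 ≤ n) {α β : ℝ} (hα : 0 ≤ α) (hβ : 0 ≤ β)
    (hL : ∀ f, Adm f → (∀ ψ : ℝ → ℝ, ContDiff ℝ 2 ψ → (∀ t, ψ (-t) = -ψ t) →
        0 ≤ α * excess n f + β * (1 - testQ n ψ f / pw n f)) →
      pw (n - 1) semi ^ n * pw n f ^ (n - 1) ≤ pw (n - 1) f ^ n * pw n semi ^ (n - 1)) :
    SharpContact n := by
  refine contactBound_of_slice fun K hJ => ?_
  obtain ⟨b, hb, h⟩ := exists_contact_profile (show n ≠ 0 by omega) hα hβ hJ (fun _ => 0)
    fun m c b _ _ _ _ => by simp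
  refine ⟨b, hb, slice_of_profile hn hJ hb ?_⟩
  have h' := hL _ (prof_adm (show n ≠ 0 by omega) hJ b) fun ψ hψ ho => by
    simpa using h ψ hψ ho
  rw [pcN_ratio hn, div_mul_eq_mul_div, div_le_iff₀ (pow_pos (pw_semi_pos n) _), mul_assoc, mul_assoc]
  exact mul_le_mul_of_nonneg_left h' (by norm_num)

end

end Vale.Agent.P237.Gen
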