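import Vale.Agent.P237.Gen.Induct
import Vale.Agent.P237.Gen.Proj

/-!
The bound of `Induct` in Euclidean space, with the projection body written through orthogonal
projections.
-/

open MeasureTheory Set
open scoped RealInnerProductSpace

namespace Vale.Agent.P237.Gen

noncomputable section

variable {n : ℕ}

/-- The projection body of `K` in Euclidean space. -/
def projBody (K : Set (EuclideanSpace ℝ (Fin (n + 1)))) : Set (EuclideanSpace ℝ (Fin (n + 1))) :=
  {y | ∀ u, ‖u‖ = 1 →
    ⟪u, y⟫ ≤ volume.real (Submodule.orthogonalProjectionOnto (ℝ ∙ u)ᗮ '' K)}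

theorem inner_eq_dot (u y : EuclideanSpace ℝ (Fin (n + 1))) :
    ⟪u, y⟫ = WithLp.ofLp u ⬝ᵥ WithLp.ofLp y := by
  rw [EuclideanSpace.inner_eq_star_dotProduct, star_trivial, dotProduct_comm]

theorem projBody_eq {K : Set (EuclideanSpace ℝ (Fin (n + 1)))} (hc : Convex ℝ K)
    (hk : IsCompact K) :
    projBody K = WithLp.ofLp ⁻¹' AllN.piSet (WithLp.ofLp '' K) := by
  have hk' : IsCompact (WithLp.ofLp '' K) := hk.image (PiLp.continuous_ofLp 2 _)
  have hc' : Convex ℝ (WithLp.ofLp '' K) :=
    hc.linear_image (WithLp.linearEquiv 2 ℝ (Fin (n + 1) → ℝ)).toLinearMap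
  ext y
  refine ⟨fun hy u => ?_, fun hy u hu => ?_⟩
  · rcases eq_or_ne u 0 with rfl | hu
    · simpa using AllN.pA_nonneg hk' 0
    · set v : EuclideanSpace ℝ (Fin (n + 1)) := WithLp.toLp 2 u with hv
      have hv0 : v ≠ 0 := fun h => hu (congrArg WithLp.ofLp h)
      have hn : 0 < ‖v‖ := norm_pos_iff.2 hv0
      have h1 : ‖(‖v‖⁻¹ • v)‖ = 1 := by simp [norm_smul, hn.ne']
      have h2 := hy _ h1
      rw [← pA_eq_proj hc hk h1, ← AllN.pA_eq_gen, inner_eq_dot, WithLp.ofLp_smul,
        AllN.pA_smul hk' hc' (inv_nonneg.2 hn.le), smul_dotProduct, smul_eq_mul] at h2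
      exact le_of_mul_le_mul_left h2 (inv_pos.2 hn)
  · rw [inner_eq_dot, ← pA_eq_proj hc hk hu, ← AllN.pA_eq_gen]
    exact hy (WithLp.ofLp u)

/-- The Euclidean form of Petty's inequality, given the sharp contact bounds. -/
theorem petty_euclid_of_sharpContact (hn : 1 ≤ n) (hcon : ∀ k, 2 ≤ k → k ≤ n → SharpContact k)
    {K : Set (EuclideanSpace ℝ (Fin (n + 1)))} (hc : Convex ℝ K) (hk : IsCompact K) :
    pcN (n + 1) * volume.real K ^ n ≤ volume.real (projBody K) := by
  have hk' : IsCompact (WithLp.ofLp '' K) := hk.image (PiLp.continuous_ofLp 2 _)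
  have hc' : Convex ℝ (WithLp.ofLp '' K) :=
    hc.linear_image (WithLp.linearEquiv 2 ℝ (Fin (n + 1) → ℝ)).toLinearMap
  have h := petty_of_sharpContact (n + 1) (by omega) (fun k h2 hlt => hcon k h2 (by omega))
    (WithLp.ofLp '' K) hk' hc'
  have hvK : volume.real (WithLp.ofLp '' K) = volume.real K := by
    have e : K = WithLp.ofLp ⁻¹' (WithLp.ofLp '' K) :=
      (preimage_image_eq K (WithLp.ofLp_injective 2)).symm
    conv_rhs => rw [e]
    rw [measureReal_def, measureReal_def,
      (PiLp.volume_preserving_ofLp (Fin (n + 1))).measure_preimage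
        hk'.measurableSet.nullMeasurableSet]
  rw [hvK, Nat.add_sub_cancel] at h
  rw [projBody_eq hc hk, measureReal_def (s := WithLp.ofLp ⁻¹' _),
    (PiLp.volume_preserving_ofLp (Fin (n + 1))).measure_preimage
      (show IsCompact (AllN.piSet (WithLp.ofLp '' K)) from AllN.isCompact_sub _).measurableSet.nullMeasurableSet, ← measureReal_def]
  exact h

end

end Vale.Agent.P237.Gen
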