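import Vale.Agent.P237.Gen.GN.Calc
import Vale.Agent.P237.Gen.GN.Approx

/-!
A sharp one-variable Gagliardo-Nirenberg inequality for slice profiles: the gradient constraint
alone bounds the slice functional from below, up to a factor `1 - O(1 / n ^ 2)`.
-/

namespace Vale.Agent.P237.Gen.GN

open MeasureTheory Set Filter
open scoped Topology

noncomputable section

/-- The constant `∫ √(1 - y) √y y ^ (n - 2)` of the calibration. -/
def gnB (n : ℕ) : ℝ := ∫ y in (0:ℝ)..1, Real.sqrt (1 - y) * Real.sqrt y * y ^ (n - 2)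

/-- The constant of the inequality. -/
def gnC (n : ℕ) : ℝ :=
  (((n : ℝ) - 1) / n * (2 * n / (2 * n - 1))) ^ (2 * n) * (2 * n - 1) *
    (((n : ℝ) + 1) / n) ^ (2 * n - 1) * gnB n ^ 2 * n

/-- The hypothesis: no test function sees more than one unit of squared gradient. -/
def GradOK (n : ℕ) (f : ℝ → ℝ) : Prop :=
  ∀ ψ : ℝ → ℝ, ContDiff ℝ 2 ψ → (∀ t, ψ (-t) = -ψ t) →
    (∫ t in (0:ℝ)..1, (2 * deriv ψ t - ((n : ℝ) + 1) * ψ t ^ 2 - 2 * t * ψ t * deriv ψ t) * f t ^ n)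
      ≤ ∫ t in (0:ℝ)..1, f t ^ n

/-- Scaling of the calibration integral. -/
theorem integral_kernel {n : ℕ} (hn : 2 ≤ n) {M : ℝ} (hM : 0 ≤ M) :
    (∫ y in (0:ℝ)..M, Real.sqrt (M - y) * Real.sqrt y * y ^ (n - 2)) = M ^ n * gnB n := by
  obtain ⟨j, rfl⟩ : ∃ j, n = j + 2 := ⟨n - 2, by omega⟩
  have h := intervalIntegral.mul_integral_comp_mul_left (a := (0:ℝ)) (b := 1)
    (f := fun y => Real.sqrt (M - y) * Real.sqrt y * y ^ j) M
  simp only [mul_zero, mul_one] at h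
  simp only [show j + 2 - 2 = j by omega, gnB, ← h]
  rw [← intervalIntegral.integral_const_mul, ← intervalIntegral.integral_const_mul]
  refine intervalIntegral.integral_congr fun y _ => ?_
  have e1 : Real.sqrt (M - M * y) = Real.sqrt M * Real.sqrt (1 - y) := by
    rw [← Real.sqrt_mul hM]; ring_nf
  simp only [e1, Real.sqrt_mul hM, mul_pow, pow_succ]
  linear_combination (M ^ j * M * y ^ j * Real.sqrt (1 - y) * Real.sqrt y) * Real.mul_self_sqrt hM

/-- The regularised kernel loses at most a multiple of `√δ`. -/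
theorem kernel_ge {n : ℕ} (hn : 2 ≤ n) {M δ : ℝ} (hM : 0 ≤ M) (hδ : 0 < δ) :
    M ^ n * gnB n - Real.sqrt M * M ^ (n - 2) * M * Real.sqrt δ ≤
      ∫ y in (0:ℝ)..M, fld δ M y * y ^ (n - 1) := by
  rw [← integral_kernel hn hM, sub_le_iff_le_add]
  have hi : IntervalIntegrable (fun y => fld δ M y * y ^ (n-1)) volume 0 M :=
    (((fld_continuousOn hδ M).mul (continuousOn_id.pow _)).mono
      (by rw [uIcc_of_le hM]; exact Icc_subset_Ici_self)).intervalIntegrable
  have e : Real.sqrt M * M ^ (n - 2) * M * Real.sqrt δ =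
      ∫ _y in (0:ℝ)..M, Real.sqrt M * M ^ (n - 2) * Real.sqrt δ := by
    simp; ring
  rw [e, ← intervalIntegral.integral_add hi intervalIntegrable_const]
  refine intervalIntegral.integral_mono_on hM (Continuous.intervalIntegrable (by fun_prop) _ _)
    (hi.add intervalIntegrable_const) fun y hy => ?_
  obtain ⟨j, rfl⟩ : ∃ j, n = j + 2 := ⟨n - 2, by omega⟩
  simp only [show j + 2 - 2 = j by omega, show j + 2 - 1 = j + 1 by omega]
  set r := Real.sqrt (y + δ) with hr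
  have hr0 : 0 < r := Real.sqrt_pos.2 (by linarith [hy.1])
  have hsy : Real.sqrt y ≤ y / r + Real.sqrt δ := by
    have a : Real.sqrt y ≤ r := Real.sqrt_le_sqrt (by linarith)
    have b : Real.sqrt δ ≤ r := Real.sqrt_le_sqrt (by linarith [hy.1])
    rw [← sub_le_iff_le_add, le_div_iff₀ hr0]
    nlinarith [Real.mul_self_sqrt hy.1, Real.mul_self_sqrt hδ.le,
      Real.mul_self_sqrt (show 0 ≤ y + δ by linarith [hy.1]), Real.sqrt_nonneg y, Real.sqrt_nonneg δ,
      mul_nonneg (Real.sqrt_nonneg y) (sub_nonneg.2 a), mul_nonneg (Real.sqrt_nonneg δ) (sub_nonneg.2 b)]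
  have hfld : fld δ M y = Real.sqrt (M - y) / r := by
    rw [fld, Real.sqrt_div (sub_nonneg.2 hy.2)]
  rw [hfld]
  have h1 : Real.sqrt (M - y) ≤ Real.sqrt M := Real.sqrt_le_sqrt (by linarith [hy.1])
  have h2 : y ^ j ≤ M ^ j := pow_le_pow_left₀ hy.1 hy.2 j
  calc Real.sqrt (M - y) * Real.sqrt y * y ^ j
      ≤ Real.sqrt (M - y) * (y / r + Real.sqrt δ) * y ^ j :=
        mul_le_mul_of_nonneg_right (mul_le_mul_of_nonneg_left hsy (Real.sqrt_nonneg _)) (pow_nonneg hy.1 _)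
    _ = Real.sqrt (M - y) / r * y ^ (j+1) + Real.sqrt (M - y) * y ^ j * Real.sqrt δ := by ring
    _ ≤ _ := add_le_add le_rfl
        (mul_le_mul_of_nonneg_right (mul_le_mul h1 h2 (pow_nonneg hy.1 _) (Real.sqrt_nonneg _)) (Real.sqrt_nonneg _))

/-- Powers of nearby bounded numbers are near. -/
theorem abs_pow_sub_le {n : ℕ} {a b K η : ℝ} (ha : 0 ≤ a) (haK : a ≤ K) (hb : 0 ≤ b) (hbK : b ≤ K)
    (h : |a - b| ≤ η) : |a ^ n - b ^ n| ≤ η * n * K ^ (n - 1) := by
  refine (abs_pow_sub_pow_le a b n).trans ?_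
  have hη : 0 ≤ η := (abs_nonneg _).trans h
  rw [abs_of_nonneg ha, abs_of_nonneg hb]
  gcongr
  exact max_le haK hbK

/-- The coefficient is bounded by the variation of the test function. -/
theorem abs_coef_le {n : ℕ} {p q : ℝ → ℝ} {t B Q : ℝ} (ht : t ∈ Icc (0:ℝ) 1) (hq : |q t| ≤ Q)
    (hp : |p t| ≤ B) : |coef n p q t| ≤ (2 + 2 * B) * Q + ((n:ℝ) + 1) * B ^ 2 := by
  have hQ0 : 0 ≤ Q := (abs_nonneg _).trans hq
  have hpq : |t * p t * q t| ≤ B * Q := by
    rw [abs_mul, abs_mul, abs_of_nonneg ht.1]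
    calc t * |p t| * |q t| ≤ 1 * B * Q := by
          have hB0 : 0 ≤ B := (abs_nonneg _).trans hp
          gcongr
          exact ht.2
      _ = _ := by ring
  have hp2 : p t ^ 2 ≤ B ^ 2 := sq_le_sq' (abs_le.1 hp).1 (abs_le.1 hp).2
  simp only [coef, abs_le]
  constructor <;> nlinarith [abs_le.1 hq, abs_le.1 hpq, sq_nonneg (p t)]

/-- The variation of the test function is bounded. -/
theorem integral_var_le {ψ : ℝ → ℝ} (hψ : ContDiff ℝ 2 ψ) (k : ℕ) {lam c H : ℝ} (hlam : 0 ≤ lam)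
    (hc : |c| ≤ 1 + lam * H) (h0 : 0 ≤ ψ 0) (h1 : ψ 1 ≤ H) :
    (∫ t in (0:ℝ)..1, (lam * deriv ψ t + |c| * ((((2*k:ℕ):ℝ) + 1) * t ^ (2*k)))) ≤ 1 + 2 * lam * H := by
  have hdc : Continuous (deriv ψ) := hψ.continuous_deriv (by norm_num)
  have hk1 : (∫ t in (0:ℝ)..1, (((2*k:ℕ):ℝ) + 1) * t ^ (2*k)) = 1 := by
    rw [intervalIntegral.integral_const_mul, integral_pow]
    simp
    field_simp
  rw [intervalIntegral.integral_add (Continuous.intervalIntegrable (by fun_prop) _ _)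
    (Continuous.intervalIntegrable (by fun_prop) _ _), intervalIntegral.integral_const_mul,
    intervalIntegral.integral_const_mul, hk1,
    intervalIntegral.integral_deriv_eq_sub (fun t _ => hψ.differentiable (by norm_num) t)
      (hdc.intervalIntegrable _ _)]
  nlinarith [mul_nonneg hlam h0, mul_le_mul_of_nonneg_left h1 hlam]

/-- One approximation step. -/
theorem step_le {n : ℕ} (hn : 2 ≤ n) {g F ψ : ℝ → ℝ}
    (hgi : IntervalIntegrable (fun t => g t ^ n) volume 0 1) (hQ : GradOK n g) {δ lam K η : ℝ}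
    (hδ : 0 < δ) (hlam : 0 ≤ lam) (hF : ContDiff ℝ 2 F) (hψ : ContDiff ℝ 2 ψ)
    (hodd : ∀ t, ψ (-t) = -ψ t) (hF0 : ∀ t ∈ Icc (0:ℝ) 1, 0 ≤ F t)
    (hF' : ∀ t ∈ Icc (0:ℝ) 1, deriv F t ≤ 0) (hFM : ∀ t ∈ Icc (0:ℝ) 1, F t ≤ F 0)
    (hrel : ∀ t ∈ Icc (0:ℝ) 1, ψ t = fld δ (F 0) (F t)) (hFK : ∀ t ∈ Icc (0:ℝ) 1, F t ≤ K)
    (hη : 0 < η) (hpow : ∀ t ∈ Icc (0:ℝ) 1, |F t ^ n - g t ^ n| ≤ η * n * K ^ (n - 1)) :
    2 * lam * n * (∫ y in (0:ℝ)..F 0, fld δ (F 0) y * y ^ (n-1))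
      - lam ^ 2 * ((n:ℝ) ^ 2 / (n - 1) * F 0 * (∫ t in (0:ℝ)..1, F t ^ (n-1))
        - ((n:ℝ) + 1) * ∫ t in (0:ℝ)..1, F t ^ n) ≤
      (∫ t in (0:ℝ)..1, g t ^ n) + η * (((2 + 2 * (1 + 2 * lam * Real.sqrt (K / δ))) *
        (1 + 2 * lam * Real.sqrt (K / δ)) + ((n:ℝ) + 1) * (1 + 2 * lam * Real.sqrt (K / δ)) ^ 2) *
        ((n:ℝ) * K ^ (n-1)) + 1) := by
  have hI0 : (0:ℝ) ∈ Icc (0:ℝ) 1 := left_mem_Icc.2 zero_le_one
  set H := Real.sqrt (K / δ) with hH
  set B := 1 + 2 * lam * H with hB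
  set Cst := ((2 + 2 * B) * B + ((n:ℝ) + 1) * B ^ 2) * ((n:ℝ) * K ^ (n-1)) with hCst
  have hK0 : 0 ≤ K := (hF0 0 hI0).trans (hFK 0 hI0)
  obtain ⟨k, hk⟩ := exists_test (n := n) (hF) (hψ) lam (ε := η) hη
  have hge := test_ge hn (hF) (hψ) hδ hF0 hF' hFM hrel lam
  set c := 1 - lam * ψ 1 with hcdef
  set e : ℝ := ((2*k:ℕ):ℝ) + 1 with he
  set p : ℝ → ℝ := fun t => lam * ψ t + c * t ^ (2*k+1) with hp
  set q : ℝ → ℝ := fun t => lam * deriv (ψ) t + c * e * t ^ (2*k) with hq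
  set q' : ℝ → ℝ := fun t => lam * deriv (ψ) t + |c| * (e * t ^ (2*k)) with hq'
  have hψc := (hψ).continuous
  have hdc : Continuous (deriv (ψ)) := (hψ).continuous_deriv (by norm_num)
  have hpC : ContDiff ℝ 2 p := (contDiff_const.mul (hψ)).add (contDiff_const.mul (contDiff_id.pow _))
  have hpd : deriv p = q := funext fun t => by
    have hd := ((((hψ).differentiable (by norm_num) t).hasDerivAt.const_mul lam).add
      ((hasDerivAt_pow (2*k+1) t).const_mul c))
    rw [hp, show (fun t => lam * ψ t + c * t ^ (2*k+1)) =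
      ((fun y => lam * ψ y) + fun y => c * y ^ (2*k+1)) from rfl, hd.deriv]
    simp only [hq, he, Nat.add_sub_cancel]
    push_cast
    ring
  have htest : (∫ t in (0:ℝ)..1, coef n p q t * g t ^ n) ≤ ∫ t in (0:ℝ)..1, g t ^ n := by
    have := hQ p hpC fun t => by
      simp only [hp, hodd t, Odd.neg_pow (n := 2*k+1) ⟨k, rfl⟩]; ring
    rw [hpd] at this
    exact this
  have hψb : ∀ t ∈ Icc (0:ℝ) 1, 0 ≤ ψ t ∧ ψ t ≤ H := fun t ht => by
    rw [hrel t ht]
    refine ⟨Real.sqrt_nonneg _, Real.sqrt_le_sqrt ?_⟩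
    exact div_le_div₀ (by linarith) (by linarith [hFK 0 hI0, hF0 t ht]) hδ (by linarith [hF0 t ht])
  have hH0 : 0 ≤ H := Real.sqrt_nonneg _
  have hcB : |c| ≤ 1 + lam * H := by
    have := hψb 1 (right_mem_Icc.2 zero_le_one)
    rw [abs_le]; constructor <;> nlinarith [mul_le_mul_of_nonneg_left this.2 hlam, mul_nonneg hlam this.1]
  have hanti : AntitoneOn (F) (Icc 0 1) :=
    antitoneOn_of_deriv_nonpos (convex_Icc 0 1) (hF).continuous.continuousOn
      ((hF).differentiable (by norm_num)).differentiableOn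
      fun t ht => hF' t (by rw [interior_Icc] at ht; exact Ioo_subset_Icc_self ht)
  have hmono : MonotoneOn (ψ) (Icc 0 1) := fun x hx y hy hxy => by
    rw [hrel x hx, hrel y hy]
    refine Real.sqrt_le_sqrt (div_le_div₀ (by linarith [hFM y hy]) (by linarith [hanti hx hy hxy])
      (by linarith [hF0 y hy]) (by linarith [hanti hx hy hxy]))
  have hdψ : ∀ t ∈ Ioo (0:ℝ) 1, 0 ≤ deriv (ψ) t := fun t ht => by
    rw [← derivWithin_of_mem_nhds (Icc_mem_nhds ht.1 ht.2)]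
    exact hmono.derivWithin_nonneg
  have hbound : ∀ t ∈ Ioo (0:ℝ) 1, |coef n p q t * F t ^ n - coef n p q t * g t ^ n| ≤
      ((2 + 2 * B) * q' t + ((n:ℝ) + 1) * B ^ 2) * (η * n * K ^ (n-1)) := fun t ht => by
    have ht' := Ioo_subset_Icc_self ht
    rw [← mul_sub, abs_mul]
    have hw : 0 ≤ e * t ^ (2*k) := mul_nonneg (by positivity) (pow_nonneg ht'.1 _)
    have hqb : |q t| ≤ q' t := by
      simp only [hq, hq']
      refine (abs_add_le _ _).trans (add_le_add ?_ ?_)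
      · rw [abs_of_nonneg (mul_nonneg hlam (hdψ t ht))]
      · rw [mul_assoc, abs_mul, abs_of_nonneg hw]
    have hpb : |p t| ≤ B := by
      have h1 : t ^ (2*k+1) ≤ 1 := pow_le_one₀ ht'.1 ht'.2
      have h2 : 0 ≤ t ^ (2*k+1) := pow_nonneg ht'.1 _
      refine (abs_add_le _ _).trans ?_
      rw [abs_of_nonneg (mul_nonneg hlam (hψb t ht').1), abs_mul, abs_of_nonneg h2]
      nlinarith [mul_le_mul_of_nonneg_left (hψb t ht').2 hlam, abs_nonneg c]
    exact mul_le_mul (abs_coef_le ht' hqb hpb) (hpow t ht') (abs_nonneg _)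
      ((abs_nonneg _).trans (abs_coef_le ht' hqb hpb))
  have hcc : Continuous (coef n p q) := by unfold coef; fun_prop
  have hi1 : IntervalIntegrable (fun t => coef n p q t * F t ^ n) volume 0 1 :=
    (hcc.mul ((hF).continuous.pow n)).intervalIntegrable _ _
  have hi2 : IntervalIntegrable (fun t => coef n p q t * g t ^ n) volume 0 1 :=
    hgi.continuousOn_mul hcc.continuousOn
  have hq'i : Continuous q' := by fun_prop
  have hq'int : (∫ t in (0:ℝ)..1, q' t) ≤ B :=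
    (integral_var_le hψ k hlam hcB (hψb 0 hI0).1 (hψb 1 (right_mem_Icc.2 zero_le_one)).2)
  have hdiff : (∫ t in (0:ℝ)..1, coef n p q t * F t ^ n) ≤
      (∫ t in (0:ℝ)..1, coef n p q t * g t ^ n) + η * Cst := by
    rw [← sub_le_iff_le_add', ← intervalIntegral.integral_sub hi1 hi2]
    refine (le_abs_self _).trans ((intervalIntegral.abs_integral_le_integral_abs zero_le_one).trans ?_)
    refine (intervalIntegral.integral_mono_on_of_le_Ioo zero_le_one (hi1.sub hi2).abs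
      (Continuous.intervalIntegrable (by fun_prop) _ _) hbound).trans ?_
    have hB0 : 0 ≤ B := by positivity
    have hK' : (0:ℝ) ≤ η * n * K ^ (n-1) := by positivity
    rw [intervalIntegral.integral_mul_const, intervalIntegral.integral_add
      (Continuous.intervalIntegrable (by fun_prop) _ _) intervalIntegrable_const,
      intervalIntegral.integral_const_mul, intervalIntegral.integral_const, smul_eq_mul, sub_zero, one_mul]
    calc _ ≤ ((2 + 2 * B) * B + ((n:ℝ) + 1) * B ^ 2) * (η * n * K ^ (n-1)) := by gcongr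
      _ = _ := by rw [hCst]; ring
  have e' : η * (Cst + 1) = η * Cst + η := by ring
  simp only [hp, hq, he] at hdiff htest hk
  linarith

/-- The regularised kernel integral depends continuously on the central height. -/
theorem continuous_kernel {δ : ℝ} (hδ : 0 < δ) (n : ℕ) :
    Continuous fun M : ℝ => ∫ y in (0:ℝ)..M, fld δ M (max y 0) * y ^ (n-1) := by
  have h : Continuous (Function.uncurry fun M y : ℝ => fld δ M (max y 0) * y ^ (n-1)) := by
    show Continuous fun p : ℝ × ℝ => Real.sqrt ((p.1 - max p.2 0) / (max p.2 0 + δ)) * p.2 ^ (n-1)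
    have : ∀ p : ℝ × ℝ, max p.2 0 + δ ≠ 0 := fun p =>
      (add_pos_of_nonneg_of_pos (le_max_right _ _) hδ).ne'
    fun_prop (disch := assumption)
  exact intervalIntegral.continuous_parametric_intervalIntegral_of_continuous h continuous_id

/-- The calibrated inequality at a fixed multiple and regularisation. -/
theorem calibrated {n : ℕ} (hn : 2 ≤ n) {g : ℝ → ℝ} (hc : ContinuousOn g (Icc 0 1))
    (ha : AntitoneOn g (Icc 0 1)) (h0 : ∀ t ∈ Icc (0:ℝ) 1, 0 ≤ g t) (hQ : GradOK n g) {δ : ℝ}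
    (hδ : 0 < δ) {lam : ℝ} (hlam : 0 ≤ lam) :
    2 * lam * n * (∫ y in (0:ℝ)..g 0, fld δ (g 0) y * y ^ (n-1))
      - lam ^ 2 * ((n:ℝ) ^ 2 / (n - 1) * g 0 * (∫ t in (0:ℝ)..1, g t ^ (n-1))
        - ((n:ℝ) + 1) * ∫ t in (0:ℝ)..1, g t ^ n) ≤ ∫ t in (0:ℝ)..1, g t ^ n := by
  choose F ψ hF hψ hodd hF0 hF' hFM hrel hclose using fun j : ℕ =>
    exists_smooth hc ha h0 hδ (η := 1 / ((j:ℝ) + 1)) (by positivity)
  set K := g 0 + 1 with hK
  have hI0 : (0:ℝ) ∈ Icc (0:ℝ) 1 := left_mem_Icc.2 zero_le_one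
  have hgK : ∀ t ∈ Icc (0:ℝ) 1, g t ≤ K := fun t ht => by linarith [ha hI0 ht ht.1]
  have hη1 : ∀ j : ℕ, 1 / ((j:ℝ) + 1) ≤ 1 := fun j =>
    (div_le_one (by positivity)).2 (by linarith [(Nat.cast_nonneg j : (0:ℝ) ≤ j)])
  have hK0 : 1 ≤ K := by linarith [h0 0 hI0]
  have hFK : ∀ j, ∀ t ∈ Icc (0:ℝ) 1, F j t ≤ K := fun j t ht => by
    linarith [hFM j t ht, (abs_le.1 (hclose j 0 hI0)).2, hη1 j]
  have hgi : ∀ k : ℕ, IntervalIntegrable (fun t => g t ^ k) volume 0 1 := fun k =>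
    ((hc.pow k).mono (by rw [uIcc_of_le zero_le_one])).intervalIntegrable
  have hpow : ∀ (k : ℕ) (j : ℕ), ∀ t ∈ Icc (0:ℝ) 1,
      |F j t ^ k - g t ^ k| ≤ 1 / ((j:ℝ) + 1) * k * K ^ (k - 1) := fun k j t ht =>
    abs_pow_sub_le (n := k) (hF0 j t ht) (hFK j t ht) (h0 t ht) (hgK t ht) (hclose j t ht)
  -- convergence
  have hlim0 : Tendsto (fun j : ℕ => 1 / ((j:ℝ) + 1)) atTop (𝓝 0) := tendsto_one_div_add_atTop_nhds_zero_nat
  have hWj : ∀ k : ℕ, Tendsto (fun j => ∫ t in (0:ℝ)..1, F j t ^ k) atTop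
      (𝓝 (∫ t in (0:ℝ)..1, g t ^ k)) := by
    intro k
    refine tendsto_iff_norm_sub_tendsto_zero.2 (squeeze_zero (fun j => norm_nonneg _) (fun j => ?_)
      (by simpa using (hlim0.mul_const ((k:ℝ) * K ^ (k-1)))))
    have hFi : IntervalIntegrable (fun t => F j t ^ k) volume 0 1 :=
      ((hF j).continuous.pow k).intervalIntegrable _ _
    rw [← intervalIntegral.integral_sub hFi (hgi k), Real.norm_eq_abs]
    refine (intervalIntegral.abs_integral_le_integral_abs zero_le_one).trans ?_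
    refine (intervalIntegral.integral_mono_on zero_le_one (hFi.sub (hgi k)).abs intervalIntegrable_const
      (hpow k j)).trans ?_
    simp [mul_assoc]
  have hM : Tendsto (fun j => F j 0) atTop (𝓝 (g 0)) := by
    refine tendsto_iff_norm_sub_tendsto_zero.2 (squeeze_zero (fun j => norm_nonneg _) (fun j => ?_) hlim0)
    exact hclose j 0 hI0
  have hT : Tendsto (fun j => ∫ y in (0:ℝ)..F j 0, fld δ (F j 0) y * y ^ (n-1)) atTop
      (𝓝 (∫ y in (0:ℝ)..g 0, fld δ (g 0) y * y ^ (n-1))) := by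
    have hcont := continuous_kernel hδ n
    have hrw : ∀ M : ℝ, 0 ≤ M → (∫ y in (0:ℝ)..M, fld δ M (max y 0) * y ^ (n-1)) =
        ∫ y in (0:ℝ)..M, fld δ M y * y ^ (n-1) := fun M hM => intervalIntegral.integral_congr fun y hy => by
      rw [uIcc_of_le hM] at hy
      simp only [max_eq_left hy.1]
    rw [← hrw _ (h0 0 hI0)]
    exact ((hcont.tendsto _).comp hM).congr fun j => hrw _ (hF0 j 0 hI0)
  set H := Real.sqrt (K / δ) with hH
  set B := 1 + 2 * lam * H with hB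
  set Cst := ((2 + 2 * B) * B + ((n:ℝ) + 1) * B ^ 2) * ((n:ℝ) * K ^ (n-1)) with hCst
  -- one step
  have hstep : ∀ j : ℕ, 2 * lam * n * (∫ y in (0:ℝ)..F j 0, fld δ (F j 0) y * y ^ (n-1))
      - lam ^ 2 * ((n:ℝ) ^ 2 / (n - 1) * F j 0 * (∫ t in (0:ℝ)..1, F j t ^ (n-1))
        - ((n:ℝ) + 1) * ∫ t in (0:ℝ)..1, F j t ^ n) ≤
      (∫ t in (0:ℝ)..1, g t ^ n) + 1 / ((j:ℝ) + 1) * (Cst + 1) := fun j =>
    step_le hn (hgi n) hQ hδ hlam (hF j) (hψ j) (hodd j) (hF0 j) (hF' j) (hFM j) (hrel j)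
      (hFK j) (by positivity) (hpow n j)
  have hL := ((hT.const_mul (2 * lam * n)).sub
    ((((hM.const_mul ((n:ℝ) ^ 2 / (n - 1))).mul (hWj (n-1))).sub ((hWj n).const_mul ((n:ℝ) + 1))).const_mul (lam ^ 2)))
  exact le_of_tendsto_of_tendsto' hL
    (by simpa using (hlim0.mul_const (Cst + 1)).const_add (∫ t in (0:ℝ)..1, g t ^ n)) hstep

/-- The arithmetic-geometric mean eliminates the central height. -/
theorem algebra_step {n : ℕ} (hn : 2 ≤ n) {M G W : ℝ} (hW : 0 < W) (hM0 : 0 < M)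
    (hTJ : ((n:ℝ) * (M ^ n * gnB n)) ^ 2 ≤
      W * ((n:ℝ) ^ 2 / ((n:ℝ) - 1) * M * G - ((n:ℝ) + 1) * W)) :
    gnC n * W ^ (2 * n - 2) ≤ G ^ (2 * n) := by
  have hn1 : (1:ℝ) < n := by exact_mod_cast hn
  set ν := (n:ℝ) with hν
  -- the two terms and the arithmetic-geometric mean
  set a := (ν - 1) * (ν + 1) * W / ν ^ 2 with ha'
  set b := (ν - 1) * gnB n ^ 2 / W with hb
  have hGlb : a / M + b * M ^ (2*n-1) ≤ G := by
    have hp : M ^ (2*n-1) * M = M ^ n * M ^ n := by rw [← pow_succ, ← pow_add]; congr 1; omega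
    have h1 : 0 < ν ^ 2 / (ν - 1) * M * W := by have : 0 < ν - 1 := by linarith
                                                positivity
    refine le_of_mul_le_mul_left ?_ h1
    have e1 : ν ^ 2 / (ν - 1) * M * W * (a / M + b * M ^ (2*n-1)) =
        (ν + 1) * W * W + ν ^ 2 * gnB n ^ 2 * (M ^ (2*n-1) * M) := by
      have : ν - 1 ≠ 0 := by linarith
      simp only [ha', hb]; field_simp
    rw [e1, hp]
    nlinarith [hTJ]
  set k := 2 * n - 1 with hk
  have hk1 : 2 * n = k + 1 := by omega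
  have hkR : (k:ℝ) = 2 * ν - 1 := by rw [hk, Nat.cast_sub (by omega)]; push_cast; rfl
  have hν1 : 0 < ν - 1 := by linarith
  have hk0 : (0:ℝ) < k := by rw [hkR]; linarith
  set x := a / M / k with hx
  set y := b * M ^ k with hy
  have hx0 : 0 < x := by positivity
  have hy0 : 0 ≤ y := by positivity
  have amgm : ((k:ℝ) + 1) ^ (k + 1) * (x ^ k * y) ≤ ((k:ℝ) * x + y) ^ (k + 1) := by
    set u := ((k:ℝ) * x + y) / (((k:ℝ) + 1) * x) - 1 with hu
    have hu1 : -2 ≤ u := by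
      have : 0 ≤ ((k:ℝ) * x + y) / (((k:ℝ) + 1) * x) := by positivity
      linarith
    have hb1 := one_add_mul_le_pow hu1 (k+1)
    have e1 : 1 + ((k + 1 : ℕ) : ℝ) * u = y / x := by
      simp only [hu]; push_cast; field_simp; ring
    rw [e1, show 1 + u = ((k:ℝ) * x + y) / (((k:ℝ) + 1) * x) by simp [hu], div_pow,
      le_div_iff₀ (by positivity), mul_pow, pow_succ x, ] at hb1
    calc ((k:ℝ) + 1) ^ (k + 1) * (x ^ k * y) = y / x * (((k:ℝ) + 1) ^ (k + 1) * (x ^ k * x)) := by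
          field_simp
      _ ≤ _ := hb1
  have hGk : ((k:ℝ) * x + y) ^ (k+1) ≤ G ^ (2*n) := by
    rw [hk1]
    refine pow_le_pow_left₀ (by positivity) ?_ _
    rw [hx, mul_div_cancel₀ _ hk0.ne']
    exact hGlb
  refine le_trans (le_of_eq ?_) (amgm.trans hGk)
  have hkk : (k:ℝ) + 1 = 2 * ν := by linarith
  have hW2 : W ^ k = W ^ (2 * n - 2) * W := by rw [← pow_succ]; congr 1; omega
  simp only [hx, hy, gnC, ha', hb, ← hν, ← hkR, hk1, div_pow, mul_pow, hW2, hkk, pow_succ]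
  field_simp
  simp only [Nat.add_sub_cancel, one_pow, mul_one]
  ring

/-- **The profile inequality.** `f` is nonnegative and decreasing; `ConcaveOn` is not needed,
only continuity away from the right endpoint. -/
theorem gn_profile {n : ℕ} (hn : 2 ≤ n) {f : ℝ → ℝ} (hc : ContinuousOn f (Ico 0 1))
    (ha : AntitoneOn f (Icc 0 1)) (h0 : ∀ t ∈ Icc (0:ℝ) 1, 0 ≤ f t)
    (hW : 0 < ∫ t in (0:ℝ)..1, f t ^ n) (hQ : GradOK n f) :
    gnC n * (∫ t in (0:ℝ)..1, f t ^ n) ^ (2 * n - 2) ≤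
      (∫ t in (0:ℝ)..1, f t ^ (n - 1)) ^ (2 * n) := by
  classical
  set L := sInf (f '' Ico 0 1) with hL
  set g : ℝ → ℝ := fun t => if t < 1 then f t else L with hg
  have hne : (f '' Ico (0:ℝ) 1).Nonempty := ⟨f 0, 0, ⟨le_rfl, one_pos⟩, rfl⟩
  have hbdd : BddBelow (f '' Ico (0:ℝ) 1) :=
    ⟨0, by rintro _ ⟨t, ht, rfl⟩; exact h0 t (Ico_subset_Icc_self ht)⟩
  have hLle : ∀ t ∈ Ico (0:ℝ) 1, L ≤ f t := fun t ht => csInf_le hbdd ⟨t, ht, rfl⟩
  have hL0 : 0 ≤ L := le_csInf hne (by rintro _ ⟨t, ht, rfl⟩; exact h0 t (Ico_subset_Icc_self ht))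
  have hgf : ∀ t, t < 1 → g t = f t := fun t ht => by simp [hg, ht]
  have hg1 : g 1 = L := by simp [hg]
  have hga : AntitoneOn g (Icc 0 1) := fun x hx y hy hxy => by
    rcases lt_or_eq_of_le hy.2 with h | rfl
    · rw [hgf x (hxy.trans_lt h), hgf y h]; exact ha hx hy hxy
    · rcases lt_or_eq_of_le hx.2 with h' | rfl
      · rw [hg1, hgf x h']; exact hLle x ⟨hx.1, h'⟩
      · rfl
  have hg0 : ∀ t ∈ Icc (0:ℝ) 1, 0 ≤ g t := fun t ht => by
    rcases lt_or_eq_of_le ht.2 with h | rfl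
    · rw [hgf t h]; exact h0 t ht
    · rw [hg1]; exact hL0
  have hgc : ContinuousOn g (Icc 0 1) := by
    intro x hx
    rcases lt_or_eq_of_le hx.2 with h | rfl
    · have h1 : ContinuousWithinAt f (Icc 0 1) x :=
        (hc x ⟨hx.1, h⟩).mono_of_mem_nhdsWithin (mem_nhdsWithin.2
          ⟨Iio 1, isOpen_Iio, h, fun y hy => ⟨hy.2.1, hy.1⟩⟩)
      exact h1.congr_of_eventuallyEq (eventually_nhdsWithin_of_eventually_nhds
        ((eventually_lt_nhds h).mono fun y hy => hgf y hy)) (hgf x h)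
    · rw [Metric.continuousWithinAt_iff]
      intro ε hε
      obtain ⟨_, ⟨a, ha', rfl⟩, hlt⟩ := exists_lt_of_csInf_lt hne (show L < L + ε by linarith)
      refine ⟨1 - a, by linarith [ha'.2], fun t ht hd => ?_⟩
      rw [Real.dist_eq, abs_lt] at hd
      rw [Real.dist_eq, hg1, abs_lt]
      rcases lt_or_eq_of_le ht.2 with h | rfl
      · rw [hgf t h]
        have := ha (Ico_subset_Icc_self ha') ht (by linarith [hd.1])
        constructor <;> linarith [hLle t ⟨ht.1, h⟩]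
      · rw [hg1]; constructor <;> linarith
  have hint : ∀ (φ : ℝ → ℝ) (k : ℕ),
      (∫ t in (0:ℝ)..1, φ t * g t ^ k) = ∫ t in (0:ℝ)..1, φ t * f t ^ k := fun φ k => by
    refine intervalIntegral.integral_congr_ae ?_
    filter_upwards [Measure.ae_ne volume (1:ℝ)] with t ht hm
    rw [uIoc_of_le zero_le_one] at hm
    rw [hgf t (lt_of_le_of_ne hm.2 ht)]
  have hint1 : ∀ k : ℕ, (∫ t in (0:ℝ)..1, g t ^ k) = ∫ t in (0:ℝ)..1, f t ^ k := fun k => by
    simpa using hint (fun _ => 1) k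
  have hQg : GradOK n g := fun ψ h1 h2 => by rw [hint, hint1]; exact hQ ψ h1 h2
  rw [← hint1, ← hint1]
  rw [← hint1] at hW
  set M := g 0 with hM
  set G := ∫ t in (0:ℝ)..1, g t ^ (n-1) with hG
  set W := ∫ t in (0:ℝ)..1, g t ^ n with hWd
  have hM0 : 0 < M := by
    rcases lt_or_eq_of_le (hg0 0 (left_mem_Icc.2 zero_le_one)) with h | h
    · exact h
    · exfalso
      have hz : W = ∫ _t in (0:ℝ)..1, (0:ℝ) := intervalIntegral.integral_congr fun t ht => by
        rw [uIcc_of_le zero_le_one] at ht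
        have : g t = 0 := le_antisymm ((hga (left_mem_Icc.2 zero_le_one) ht ht.1).trans h.ge) (hg0 t ht)
        simp [this, zero_pow (show n ≠ 0 by omega)]
      simp [hz] at hW
  have hn1 : (1:ℝ) < n := by exact_mod_cast hn
  set ν := (n:ℝ) with hν
  set J := ν ^ 2 / (ν - 1) * M * G - (ν + 1) * W with hJ
  set T := ν * (M ^ n * gnB n) with hT
  have hB : 0 < gnB n :=
    intervalIntegral.intervalIntegral_pos_of_pos_on (Continuous.intervalIntegrable (by fun_prop) _ _)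
      (fun y hy => by
        have := Real.sqrt_pos.2 hy.1
        have := Real.sqrt_pos.2 (sub_pos.2 hy.2)
        have := hy.1
        positivity) zero_lt_one
  have hT0 : 0 < T := by positivity
  -- remove the regularisation
  have key : ∀ lam : ℝ, 0 ≤ lam → 2 * lam * T - lam ^ 2 * J ≤ W := by
    intro lam hlam
    set C := Real.sqrt M * M ^ (n - 2) * M with hC
    have h : ∀ δ > 0, 2 * lam * T - lam ^ 2 * J ≤ W + 2 * lam * ν * C * Real.sqrt δ := fun δ hδ => by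
      have a := calibrated hn hgc hga hg0 hQg hδ hlam
      have b := mul_le_mul_of_nonneg_left (kernel_ge hn hM0.le hδ) (show 0 ≤ 2 * lam * ν by positivity)
      rw [mul_sub] at b
      simp only [hT, hJ]
      linarith
    have hl : Tendsto (fun δ : ℝ => W + 2 * lam * ν * C * Real.sqrt δ) (𝓝[>] 0) (𝓝 W) :=
      tendsto_nhdsWithin_of_tendsto_nhds (by
        have := ((Real.continuous_sqrt.tendsto 0).const_mul (2 * lam * ν * C)).const_add W
        simpa using this)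
    exact ge_of_tendsto hl (eventually_nhdsWithin_of_forall h)
  have hJ0 : 0 < J := by
    by_contra h
    have := key ((W + 1) / (2 * T)) (by positivity)
    rw [show 2 * ((W + 1) / (2 * T)) * T = W + 1 by field_simp] at this
    nlinarith [sq_nonneg ((W + 1) / (2 * T))]
  have hTJ : T ^ 2 ≤ W * J := by
    have := key (T / J) (by positivity)
    rw [show 2 * (T / J) * T - (T / J) ^ 2 * J = T ^ 2 / J by field_simp; ring, div_le_iff₀ hJ0] at this
    exact this
  exact algebra_step hn hW hM0 hTJ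

end

end Vale.Agent.P237.Gen.GN
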