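import Vale.Agent.P237.Gen.Stab
import Vale.Agent.P237.Gen.Reduce
import Vale.Agent.P237.AllN.Body

/-!
One step of the induction: Petty's inequality in dimension `n` and a contact bound in dimension
`n + 1` give Petty's inequality for zonotopes in dimension `n + 1`, through a near-minimiser.
-/

open MeasureTheory Set Pointwise Filter Topology

namespace Vale.Agent.P237.Gen

open Mx

noncomputable section

variable {n : ℕ} {ι : Type} [Fintype ι]

/-- Lower bound `c` for the ratio of all zonotopes in dimension `n + 1`. -/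
def PZ (n : ℕ) (c : ℝ) : Prop :=
  ∀ (ι : Type) [Fintype ι] (s : ι → Fin (n + 1) → ℝ), 0 < volume.real (zon s) →
    c * volume.real (zon s) ^ n ≤ volume.real (zon (piGen s))

/-- In John position some contact direction has a large slice functional. -/
def ContactBound (n : ℕ) (k : ℝ) : Prop :=
  ∀ X : Set (Fin (n + 1) → ℝ), Body X → (∀ x ∈ X, -x ∈ X) →
    ∃ T : (Fin (n + 1) → ℝ) ≃ₗ[ℝ] (Fin (n + 1) → ℝ),
      (∀ x : Fin (n + 1) → ℝ, ∑ i, x i ^ 2 ≤ 1 → x ∈ T '' X) ∧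
      (∀ x ∈ T '' X, ∀ i, |x i| ≤ Real.sqrt (n + 1)) ∧
      ∃ h : ℝ, 0 < h ∧ (∀ x ∈ T '' X, x 0 ≤ h) ∧
        k * volume.real (T '' X) ^ (n - 1) * h ≤
          (∫ t, AllN.slA (T '' X) t ^ (((n : ℝ) - 1) / n)) ^ n

/-- After some linear change of variables a supporting height has a large slice functional. -/
def SliceBound (n : ℕ) (k : ℝ) : Prop :=
  ∀ X : Set (Fin (n + 1) → ℝ), Body X → (∀ x ∈ X, -x ∈ X) →
    ∃ T : (Fin (n + 1) → ℝ) ≃ₗ[ℝ] (Fin (n + 1) → ℝ),
      ∃ h : ℝ, 0 < h ∧ (∀ x ∈ T '' X, x 0 ≤ h) ∧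
        k * volume.real (T '' X) ^ (n - 1) * h ≤
          (∫ t, AllN.slA (T '' X) t ^ (((n : ℝ) - 1) / n)) ^ n

omit [Fintype ι] in
theorem ContactBound.slice {k : ℝ} (hcon : ContactBound n k) : SliceBound n k := fun X hX hs => by
  obtain ⟨T, -, -, h⟩ := hcon X hX hs
  exact ⟨T, h⟩

omit [Fintype ι] in
theorem abs_det_pos (T : (Fin (n + 1) → ℝ) ≃ₗ[ℝ] (Fin (n + 1) → ℝ)) :
    0 < |LinearMap.det (T : (Fin (n + 1) → ℝ) →ₗ[ℝ] (Fin (n + 1) → ℝ))| :=
  abs_pos.2 (LinearEquiv.isUnit_det' T).ne_zero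

theorem piSet_zon (s : ι → Fin (n + 1) → ℝ) : AllN.piSet (zon s) = zon (piGen s) := by
  ext x
  refine ⟨fun hx => subset_zon_of_dot_le _ fun u => ?_, fun hx u => ?_⟩
  · rw [← pA_zon]; exact hx u
  · rw [AllN.pA_eq_gen, pA_zon]; exact dot_le_supp _ u hx

theorem supp_map_le {s : ι → Fin (n + 1) → ℝ} {T : (Fin (n + 1) → ℝ) ≃ₗ[ℝ] (Fin (n + 1) → ℝ)}
    {h : ℝ} (hh : ∀ x ∈ T '' zon s, x 0 ≤ h) :
    supp s (adj (T : (Fin (n + 1) → ℝ) →ₗ[ℝ] (Fin (n + 1) → ℝ)) e0) ≤ h := by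
  obtain ⟨x, hx, e⟩ := exists_dot_eq_supp (fun i => T (s i)) e0
  have him : T '' zon s = zon (fun i => T (s i)) :=
    zon_map s (T : (Fin (n + 1) → ℝ) →ₗ[ℝ] (Fin (n + 1) → ℝ))
  have := hh x (him.symm ▸ hx)
  rw [← supp_map, ← e]
  simpa [e0, single_dotProduct] using this

/-- A symmetric body normalised by John's ellipsoid: some positive bound holds for all zonotopes. -/
theorem exists_PZ_pos {k : ℝ} (hcon : ContactBound n k) : ∃ c, 0 < c ∧ PZ n c := by
  set a : ℝ := 1 / ((n : ℝ) + 1) with ha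
  have ha0 : 0 < a := by positivity
  set t : Fin (n + 1) → Fin (n + 1) → ℝ := fun i => a • Pi.single i 1 with ht
  have hts : ∀ u ≠ 0, 0 < supp t u := fun u hu => by
    obtain ⟨j, hj⟩ := Function.ne_iff.1 hu
    have e : ∀ i, |u ⬝ᵥ t i| = a * |u i| := fun i => by simp [ht, abs_mul, abs_of_pos ha0]
    refine Finset.sum_pos' (fun i _ => abs_nonneg _) ⟨j, Finset.mem_univ j, ?_⟩
    rw [e]
    exact mul_pos ha0 (abs_pos.2 hj)
  have htB : Body (zon t) := zon_body t (zon_pos_of_supp t hts)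
  have hq : 0 < volume.real (zon (piGen t)) := zon_pos_of_supp _ fun u hu => by
    rw [← pA_zon]; exact pA_pos htB hu
  set q := volume.real (zon (piGen t)) with hqd
  set B : ℝ := (2 * Real.sqrt ((n : ℝ) + 1)) ^ (n + 1) with hBd
  have hB : 0 < B := by positivity
  refine ⟨q / B ^ n, by positivity, fun ι _ s hs => ?_⟩
  obtain ⟨T, hin, hout, -⟩ := hcon (zon s) (zon_body s hs) fun x hx => zon_neg_mem s hx
  have him : T '' zon s = zon (fun i => T (s i)) :=
    zon_map s (T : (Fin (n + 1) → ℝ) →ₗ[ℝ] (Fin (n + 1) → ℝ))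
  set d := |LinearMap.det (T : (Fin (n + 1) → ℝ) →ₗ[ℝ] (Fin (n + 1) → ℝ))| with hd
  have hdp : 0 < d := abs_det_pos T
  have hvT : volume.real (T '' zon s) = d * volume.real (zon s) := vol_map _ _
  have hsub : zon t ⊆ T '' zon s := by
    rintro _ ⟨c, hc, rfl⟩
    refine hin _ ?_
    have e : ∀ j, (∑ i, c i • t i) j = a * c j := fun j => by
      simp [ht, Finset.sum_apply, Pi.single_apply, mul_comm]
    have hb : ∀ j, (a * c j) ^ 2 ≤ a ^ 2 := fun j => by
      rw [mul_pow]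
      refine mul_le_of_le_one_right (sq_nonneg a) ?_
      rw [sq_le_one_iff_abs_le_one]
      exact abs_le.2 (hc j trivial)
    simp only [e]
    calc ∑ j, (a * c j) ^ 2 ≤ ∑ _j : Fin (n + 1), a ^ 2 := Finset.sum_le_sum fun j _ => hb j
      _ = a := by rw [ha]; simp; field_simp
      _ ≤ 1 := by rw [ha, div_le_one (by positivity)]; simp
  have hlow : zon (piGen t) ⊆ zon (piGen fun i => T (s i)) := fun x hx =>
    subset_zon_of_dot_le _ fun u => (dot_le_supp _ u hx).trans (by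
      rw [← pA_zon, ← pA_zon]
      exact pA_mono (zon_convex t) (zon_compact t) (zon_convex _) (zon_compact _) (him ▸ hsub) u)
  have h1 := measureReal_mono (μ := volume) hlow (zon_compact _).measure_ne_top
  rw [vol_piGen_map, ← hd, ← hqd] at h1
  have h2 := measureReal_mono (μ := volume)
    (show T '' zon s ⊆ Icc (fun _ => -Real.sqrt ((n : ℝ) + 1)) (fun _ => Real.sqrt ((n : ℝ) + 1))
      from fun x hx => ⟨fun i => (abs_le.1 (hout x hx i)).1, fun i => (abs_le.1 (hout x hx i)).2⟩)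
    isCompact_Icc.measure_ne_top
  have h3 : d * volume.real (zon s) ≤ B := by
    rw [← hvT, hBd]
    refine h2.trans_eq ?_
    rw [measureReal_def, Real.volume_Icc_pi, Finset.prod_const, ENNReal.toReal_pow,
      ENNReal.toReal_ofReal (by have := Real.sqrt_nonneg ((n : ℝ) + 1); linarith)]
    simp
    ring
  calc q / B ^ n * volume.real (zon s) ^ n
      ≤ d ^ n * volume.real (zon (piGen s)) / B ^ n * volume.real (zon s) ^ n := by gcongr
    _ = volume.real (zon (piGen s)) * (d * volume.real (zon s)) ^ n / B ^ n := by rw [mul_pow]; ring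
    _ ≤ volume.real (zon (piGen s)) * B ^ n / B ^ n := by gcongr
    _ = volume.real (zon (piGen s)) := by field_simp

/-- One near-minimal zonotope gives the bound. -/
theorem near_min (hn : 2 ≤ n) {c k : ℝ} (hc : 0 < c)
    (hP : ∀ S : Set (Fin n → ℝ), IsCompact S → Convex ℝ S →
      c * volume.real S ^ (n - 1) ≤ volume.real (AllN.piSet S))
    (hcon : SliceBound n k) {m ε t : ℝ} (hm : 0 < m) (hPZ : PZ n m) (hε : 0 ≤ ε) (ht0 : 0 ≤ t)
    (ht1 : t < 1) (ht : 8 * ((1 + ε / 2) ^ (n + 1) - 1) ≤ t ^ 2) (s : ι → Fin (n + 1) → ℝ)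
    (hs : 0 < volume.real (zon s))
    (hsm : volume.real (zon (piGen s)) ≤ m * (1 + ε) * volume.real (zon s) ^ n) :
    c * k * (1 - t) ^ (2 * n) ≤ m * (1 + ε) * (1 + t) ^ (2 * n) := by
  have hn0 : n ≠ 0 := by omega
  set g1 := piGen s with hg1
  set g2 := piGen g1 with hg2
  set g3 := piGen g2 with hg3
  set V0 := volume.real (zon s) with hV0
  set V1 := volume.real (zon g1) with hV1
  set W := volume.real (zon g2) with hW
  have V1p : 0 < V1 := lt_of_lt_of_le (by positivity) (hPZ _ s hs)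
  have hPW : m * V1 ^ n ≤ W := hPZ _ g1 V1p
  have Wp : 0 < W := lt_of_lt_of_le (by positivity) hPW
  have hK := zon_body s hs
  have hmx : mixed (zon s) g2 = V1 := by
    rw [hV1, vol_zon g1, mixed]
    simp only [pA_zon, ← hg1, ← hg2]
    rw [supp_symm g2 g1]
  have hWV : W * V0 ^ n ≤ V1 ^ (n + 1) := by
    have := minkowski hK g2
    rw [hmx, ← hV0, ← hW] at this
    linarith
  obtain ⟨l, hl, -, key⟩ := pA_near hn0 hK g2 (zon_body g2 Wp) hε ht0 ht1 ht (by
    rw [hmx, ← hV0, ← hW]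
    calc V1 ^ (n + 1) = V1 * V1 ^ n := pow_succ' V1 n
      _ ≤ m * (1 + ε) * V0 ^ n * V1 ^ n := by gcongr
      _ = (1 + ε) * (V0 ^ n * (m * V1 ^ n)) := by ring
      _ ≤ _ := by gcongr)
  simp only [pA_zon, ← hg1, ← hg3] at key
  have hR : (1 - t) ^ (2 * n) * V1 ≤ l ^ n * W := by
    calc (1 - t) ^ (2 * n) * V1 = 2 / ((n : ℝ) + 1) * ∑ i, (1 - t) ^ (2 * n) * supp g1 (g2 i) := by
          rw [← hmx]; simp only [mixed, pA_zon, ← hg1, ← Finset.mul_sum]; ring
      _ ≤ 2 / ((n : ℝ) + 1) * ∑ i, l ^ n * supp g3 (g2 i) :=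
          mul_le_mul_of_nonneg_left (Finset.sum_le_sum fun i _ => (key _).1) (by positivity)
      _ = l ^ n * W := by rw [hW, vol_zon g2, ← hg3, ← Finset.mul_sum]; ring
  obtain ⟨T, h, hp, hh, hG⟩ := hcon (zon g1) (zon_body g1 V1p) fun x hx => zon_neg_mem g1 hx
  set d := |LinearMap.det (T : (Fin (n + 1) → ℝ) →ₗ[ℝ] (Fin (n + 1) → ℝ))| with hd
  have dp : 0 < d := abs_det_pos T
  have him : T '' zon g1 = zon (fun i => T (g1 i)) :=
    zon_map g1 (T : (Fin (n + 1) → ℝ) →ₗ[ℝ] (Fin (n + 1) → ℝ))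
  have hvT : volume.real (T '' zon g1) = d * V1 := vol_map _ _
  have hsl := AllN.body_slice_le_pA_piSet hn hc.le hP
    (zon_body (fun i => T (g1 i)) (by rw [← him, hvT]; positivity))
    (Set.Subset.antisymm
      (fun x hx => by simpa using zon_neg_mem _ (Set.mem_neg.1 hx))
      fun x hx => Set.mem_neg.2 (zon_neg_mem _ hx))
  have hcov : AllN.pA (AllN.piSet (zon fun i => T (g1 i))) (Pi.single 0 1) =
      d ^ n / d * supp g3 (adj (T : (Fin (n + 1) → ℝ) →ₗ[ℝ] (Fin (n + 1) → ℝ)) e0) := by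
    rw [piSet_zon, AllN.pA_eq_gen, pA_zon]
    exact supp_piGen_piGen_map g1 T e0
  rw [hcov, ← him] at hsl
  rw [hvT] at hG
  set w := adj (T : (Fin (n + 1) → ℝ) →ₗ[ℝ] (Fin (n + 1) → ℝ)) e0 with hw
  have hw2 : l ^ n * supp g3 w ≤ (1 + t) ^ (2 * n) * h :=
    (key w).2.trans (mul_le_mul_of_nonneg_left (supp_map_le hh) (by positivity))
  have hdn : d ^ n / d = d ^ (n - 1) := by
    rw [div_eq_iff dp.ne', ← pow_succ, Nat.sub_add_cancel (by omega)]
  rw [hdn] at hsl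
  have h4 : c * k * V1 ^ (n - 1) * h ≤ supp g3 w := by
    refine le_of_mul_le_mul_left ?_ (pow_pos dp (n - 1))
    calc d ^ (n - 1) * (c * k * V1 ^ (n - 1) * h) = c * (k * (d * V1) ^ (n - 1) * h) := by
          rw [mul_pow]; ring
      _ ≤ c * (∫ x, AllN.slA (T '' zon g1) x ^ (((n : ℝ) - 1) / n)) ^ n :=
          mul_le_mul_of_nonneg_left hG hc.le
      _ ≤ _ := hsl
  have h5 : c * k * V1 ^ (n - 1) * l ^ n ≤ (1 + t) ^ (2 * n) := by
    refine le_of_mul_le_mul_right ?_ hp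
    calc c * k * V1 ^ (n - 1) * l ^ n * h = l ^ n * (c * k * V1 ^ (n - 1) * h) := by ring
      _ ≤ l ^ n * supp g3 w := by gcongr
      _ ≤ _ := hw2
  rcases le_or_gt (c * k) 0 with hck | hck
  · exact le_trans (mul_nonpos_of_nonpos_of_nonneg hck ((even_two_mul n).pow_nonneg _))
      (by positivity)
  refine le_of_mul_le_mul_right ?_ (show 0 < V1 ^ n * V0 ^ n by positivity)
  calc c * k * (1 - t) ^ (2 * n) * (V1 ^ n * V0 ^ n)
      = c * k * V1 ^ (n - 1) * V0 ^ n * ((1 - t) ^ (2 * n) * V1) := by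
        rw [← pow_sub_one_mul hn0 V1]; ring
    _ ≤ c * k * V1 ^ (n - 1) * V0 ^ n * (l ^ n * W) := by gcongr
    _ = c * k * V1 ^ (n - 1) * l ^ n * (W * V0 ^ n) := by ring
    _ ≤ c * k * V1 ^ (n - 1) * l ^ n * V1 ^ (n + 1) := by gcongr
    _ ≤ (1 + t) ^ (2 * n) * V1 ^ (n + 1) := by gcongr
    _ = (1 + t) ^ (2 * n) * V1 * V1 ^ n := by ring
    _ ≤ (1 + t) ^ (2 * n) * (m * (1 + ε) * V0 ^ n) * V1 ^ n := by gcongr
    _ = _ := by ring

/-- One step of the induction, from a slice bound and any contact bound. -/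
theorem pz_step_slice (hn : 2 ≤ n) {c k k₀ : ℝ} (hc : 0 < c)
    (hP : ∀ S : Set (Fin n → ℝ), IsCompact S → Convex ℝ S →
      c * volume.real S ^ (n - 1) ≤ volume.real (AllN.piSet S))
    (hcon₀ : ContactBound n k₀) (hcon : SliceBound n k) : PZ n (c * k) := by
  set S : Set ℝ := {r | ∃ (ι : Type) (_ : Fintype ι) (s : ι → Fin (n + 1) → ℝ),
    0 < volume.real (zon s) ∧ r = volume.real (zon (piGen s)) / volume.real (zon s) ^ n} with hS
  obtain ⟨c0, cp, hc0⟩ := exists_PZ_pos hcon₀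
  have hbd : BddBelow S := ⟨0, by rintro r ⟨ι, _, s, hs, rfl⟩; positivity⟩
  intro ι0 _ s0 hs0
  have hne : S.Nonempty := ⟨_, ι0, inferInstance, s0, hs0, rfl⟩
  set m := sInf S with hm
  have hPZ : PZ n m := fun ι _ s hs =>
    (le_div_iff₀ (by positivity)).1 (csInf_le hbd ⟨ι, inferInstance, s, hs, rfl⟩)
  have mp : 0 < m := lt_of_lt_of_le cp (le_csInf hne (by
    rintro r ⟨ι, _, s, hs, rfl⟩; exact (le_div_iff₀ (by positivity)).2 (hc0 ι s hs)))
  suffices c * k ≤ m by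
    refine le_trans ?_ (hPZ ι0 s0 hs0)
    exact mul_le_mul_of_nonneg_right this (by positivity)
  let t : ℝ → ℝ := fun ε => Real.sqrt (8 * ((1 + ε / 2) ^ (n + 1) - 1))
  have htc : Continuous t := by fun_prop
  have ht0 : t 0 = 0 := by simp [t]
  let F : ℝ → ℝ := fun ε => m * (1 + ε) * (1 + t ε) ^ (2 * n) - c * k * (1 - t ε) ^ (2 * n)
  have hF : Tendsto F (𝓝[>] 0) (𝓝 (m - c * k)) := by
    have : Continuous F := by fun_prop
    have h := (this.tendsto 0).mono_left (nhdsWithin_le_nhds (s := Ioi (0 : ℝ)))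
    simpa [F, ht0] using h
  have hev : ∀ᶠ ε in 𝓝[>] (0 : ℝ), 0 ≤ F ε := by
    have hlt : ∀ᶠ ε in 𝓝[>] (0 : ℝ), t ε < 1 :=
      ((htc.tendsto 0).mono_left nhdsWithin_le_nhds).eventually
        (eventually_lt_nhds (by simp [ht0]))
    filter_upwards [hlt, self_mem_nhdsWithin] with ε hlt (hε : 0 < ε)
    obtain ⟨r, ⟨ι, _, s, hs, rfl⟩, hr⟩ :=
      exists_lt_of_csInf_lt hne (show sInf S < m * (1 + ε) by rw [← hm]; nlinarith)
    have hd : (0 : ℝ) ≤ 8 * ((1 + ε / 2) ^ (n + 1) - 1) :=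
      mul_nonneg (by norm_num) (sub_nonneg.2 (one_le_pow₀ (by linarith)))
    exact sub_nonneg.2 (near_min hn hc hP hcon mp hPZ hε.le (Real.sqrt_nonneg _) hlt
      (Real.sq_sqrt hd).ge s hs ((div_lt_iff₀ (by positivity)).1 hr).le)
  linarith [ge_of_tendsto hF hev]

/-- One step of the induction: Petty's inequality for zonotopes in dimension `n + 1`. -/
theorem pz_step (hn : 2 ≤ n) {c k : ℝ} (hc : 0 < c)
    (hP : ∀ S : Set (Fin n → ℝ), IsCompact S → Convex ℝ S →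
      c * volume.real S ^ (n - 1) ≤ volume.real (AllN.piSet S))
    (hcon : ContactBound n k) : PZ n (c * k) :=
  pz_step_slice hn hc hP hcon hcon.slice

end

end Vale.Agent.P237.Gen
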