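import Vale.Agent.P237.Gen.Assembly
import Vale.Agent.P237.Every.Body
import Vale.Agent.P237.Every.Defs
import Vale.Agent.P237.AllN.Planar

/-!
Petty's inequality in every dimension from the contact bounds, by induction on the dimension.
-/

open MeasureTheory Set Pointwise

namespace Vale.Agent.P237.Gen

open Every (kappa)

noncomputable section

/-- The ratio of the Euclidean ball in dimension `N`. -/
def pcN (N : ℕ) : ℝ := kappa (N - 1) ^ N / kappa N ^ (N - 2)

theorem kappa_pos (N : ℕ) : 0 < kappa N :=
  ENNReal.toReal_pos (Metric.measure_ball_pos volume _ one_pos).ne' measure_ball_lt_top.ne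

theorem pcN_pos (N : ℕ) : 0 < pcN N :=
  div_pos (pow_pos (kappa_pos _) _) (pow_pos (kappa_pos _) _)

theorem pcN_two : pcN 2 = 4 := by
  have h : kappa 1 = 2 := by
    rw [kappa, measureReal_def, EuclideanSpace.volume_ball]
    rw [ENNReal.ofReal_one, one_pow, one_mul, ENNReal.toReal_ofReal (by positivity)]
    simp only [Fintype.card_fin, pow_one, Nat.cast_one]
    rw [Real.Gamma_add_one (by norm_num), Real.Gamma_one_half_eq]
    field_simp
  rw [pcN]
  norm_num [h]

/-- The contact bound with the sharp constant, which the Euclidean ball attains. -/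
def SharpContact (n : ℕ) : Prop := ContactBound n (pcN (n + 1) / pcN n)

/-- Petty's inequality in every dimension, given the sharp contact bounds below it. -/
theorem petty_of_sharpContact (N : ℕ) (hN : 2 ≤ N)
    (hcon : ∀ n, 2 ≤ n → n < N → SharpContact n) :
    ∀ S : Set (Fin N → ℝ), IsCompact S → Convex ℝ S →
      pcN N * volume.real S ^ (N - 1) ≤ volume.real (AllN.piSet S) := by
  induction N, hN using Nat.le_induction with
  | base =>
    intro S hS hc
    rw [pcN_two]
    exact AllN.four_mul_le_piSet hS hc
  | succ n hn ih =>
    intro S hS hc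
    have hstep := pz_step hn (pcN_pos n)
      (ih fun k hk hkn => hcon k hk (Nat.lt_succ_of_lt hkn)) (hcon n hn n.lt_succ_self)
    rw [mul_div_cancel₀ _ (pcN_pos n).ne'] at hstep
    exact Every.piSet_le_of_zon (by omega) (pcN_pos _).le hstep hS hc

end

end Vale.Agent.P237.Gen
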