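import Vale.Agent.P237.Gen.Mixed

/-!
Stability of Minkowski's first inequality through Bonnesen's inequality: near equality makes the
projection functions proportional.
-/

open MeasureTheory Set Pointwise Filter Topology

namespace Vale.Agent.P237.Gen

open Mx

noncomputable section

variable {n : ℕ} {ι : Type} [Fintype ι]

/-- The scalar inequality behind stability. -/
theorem two_pow_mul_le (hn : n ≠ 0) {x : ℝ} (hx : 0 < x) :
    2 ^ (n + 1) * (1 + (x - 1) ^ 2 / (2 * x)) ≤ (x + 1 / x) ^ n * (x ^ n + 1 / x ^ n) := by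
  have h1 : x + 1 / x = 2 * (1 + (x - 1) ^ 2 / (2 * x)) := by field_simp; ring
  have h2 : 2 ≤ x ^ n + 1 / x ^ n := by
    have hp : 0 < x ^ n := pow_pos hx n
    rw [le_iff_exists_nonneg_add]
    exact ⟨(x ^ n - 1) ^ 2 / x ^ n, by positivity, by field_simp; ring⟩
  have h3 : (1 + (x - 1) ^ 2 / (2 * x)) ≤ (1 + (x - 1) ^ 2 / (2 * x)) ^ n :=
    le_self_pow₀ (le_add_of_nonneg_right (by positivity)) hn
  calc 2 ^ (n + 1) * (1 + (x - 1) ^ 2 / (2 * x))
      = 2 ^ n * (1 + (x - 1) ^ 2 / (2 * x)) * 2 := by ring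
    _ ≤ 2 ^ n * (1 + (x - 1) ^ 2 / (2 * x)) ^ n * 2 := by gcongr
    _ ≤ _ := by
        rw [h1, mul_pow]
        exact mul_le_mul_of_nonneg_left h2 (by positivity)

/-- Near equality in the scalar inequality. -/
theorem ratio_near (hn : n ≠ 0) {ε t A B : ℝ} (ht0 : 0 ≤ t) (ht1 : t < 1)
    (ht : 8 * ((1 + ε / 2) ^ (n + 1) - 1) ≤ t ^ 2) (Ap : 0 < A) (Bp : 0 < B)
    (h : (rt n A + rt n B) ^ n * (1 / A + 1 / B) ≤ (2 + ε) ^ (n + 1)) :
    (1 - t) ^ (2 * n) * A ≤ B ∧ B ≤ (1 + t) ^ (2 * n) * A := by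
  set p := Real.sqrt (rt n A) with hp
  set q := Real.sqrt (rt n B) with hq
  have pp : 0 < p := Real.sqrt_pos.2 (rt_pos Ap)
  have qp : 0 < q := Real.sqrt_pos.2 (rt_pos Bp)
  have eA : rt n A = p ^ 2 := (Real.sq_sqrt (rt_nonneg Ap.le)).symm
  have eB : rt n B = q ^ 2 := (Real.sq_sqrt (rt_nonneg Bp.le)).symm
  have eA' : A = p ^ (2 * n) := by rw [pow_mul, ← eA, rt_pow hn Ap.le]
  have eB' : B = q ^ (2 * n) := by rw [pow_mul, ← eB, rt_pow hn Bp.le]
  set x := q / p with hx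
  have hx0 : 0 < x := div_pos qp pp
  have e : (rt n A + rt n B) ^ n * (1 / A + 1 / B) = (x + 1 / x) ^ n * (x ^ n + 1 / x ^ n) := by
    rw [eA, eB, eA', eB', hx, pow_mul, pow_mul]
    have h1 : q / p + 1 / (q / p) = (p ^ 2 + q ^ 2) / (p * q) := by field_simp; ring
    rw [h1, div_pow, div_pow, mul_pow]
    field_simp
    rw [← pow_mul, ← pow_mul, mul_comm 2 n, pow_mul, pow_mul]
    ring
  have key : (x - 1) ^ 2 / (2 * x) ≤ t ^ 2 / 8 := by
    have h1 := (two_pow_mul_le hn hx0).trans (e ▸ h)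
    rw [show (2 + ε) ^ (n + 1) = 2 ^ (n + 1) * (1 + ε / 2) ^ (n + 1) by rw [← mul_pow]; ring] at h1
    have := le_of_mul_le_mul_left h1 (by positivity)
    linarith
  rw [div_le_iff₀ (by positivity)] at key
  have hlo : 1 - t ≤ x := by
    by_contra hc
    push Not at hc
    nlinarith [mul_lt_mul_of_pos_left hc hx0]
  have hhi : x ≤ 1 + t := by
    by_contra hc
    push Not at hc
    nlinarith [mul_lt_mul_of_pos_left hc hx0, mul_nonneg (mul_nonneg ht0 ht0) hx0.le]
  rw [eA', eB', ← mul_pow, ← mul_pow]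
  exact ⟨pow_le_pow_left₀ (by nlinarith) ((le_div_iff₀ pp).1 hlo) _,
    pow_le_pow_left₀ qp.le ((div_le_iff₀ pp).1 hhi) _⟩

theorem zon_smul' (g : ι → Fin (n + 1) → ℝ) (l : ℝ) : zon (l • g) = l • zon g := by
  rw [zon, zon, ← image_smul, image_image]
  refine image_congr fun c _ => ?_
  simp only [Finset.smul_sum, Pi.smul_apply, smul_comm l]

/-- Near equality in Minkowski's first inequality makes the projection functions proportional. -/
theorem pA_near (hn : n ≠ 0) {K : Set (Fin (n + 1) → ℝ)} (hK : Body K)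
    (g : ι → Fin (n + 1) → ℝ) (hg : Body (zon g)) {ε t : ℝ} (hε : 0 ≤ ε) (ht0 : 0 ≤ t) (ht1 : t < 1)
    (ht : 8 * ((1 + ε / 2) ^ (n + 1) - 1) ≤ t ^ 2)
    (hmk : mixed K g ^ (n + 1) ≤ (1 + ε) * (volume.real K ^ n * volume.real (zon g))) :
    ∃ l : ℝ, 0 < l ∧ l ^ (n + 1) * volume.real (zon g) = volume.real K ∧ ∀ u,
      (1 - t) ^ (2 * n) * pA K u ≤ l ^ n * pA (zon g) u ∧
        l ^ n * pA (zon g) u ≤ (1 + t) ^ (2 * n) * pA K u := by
  have hV := vol_pos hK
  have hW := vol_pos hg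
  set a := rt (n + 1) (volume.real K) with ha
  set b := rt (n + 1) (volume.real (zon g)) with hb
  have ha0 : 0 < a := rt_pos hV
  have hb0 : 0 < b := rt_pos hW
  have ha3 : a ^ (n + 1) = volume.real K := rt_pow (Nat.add_one_ne_zero n) hV.le
  have hb3 : b ^ (n + 1) = volume.real (zon g) := rt_pow (Nat.add_one_ne_zero n) hW.le
  set l := a / b with hl
  have hl0 : 0 < l := div_pos ha0 hb0
  have hle : l ^ (n + 1) * volume.real (zon g) = volume.real K := by
    rw [← ha3, ← hb3, ← mul_pow, hl, div_mul_cancel₀ _ hb0.ne']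
  refine ⟨l, hl0, hle, fun u => ?_⟩
  rcases eq_or_ne u 0 with rfl | hu
  · simp [Mx.pA_zero]
  have hm : mixed K g ≤ (1 + ε) * (a ^ n * b) := by
    by_contra hc
    push Not at hc
    have := pow_lt_pow_left₀ hc (by positivity) (Nat.add_one_ne_zero n)
    have h1 : ((1 + ε) * (a ^ n * b)) ^ (n + 1) =
        (1 + ε) ^ (n + 1) * (volume.real K ^ n * volume.real (zon g)) := by
      rw [mul_pow, mul_pow, ← pow_mul, mul_comm n (n + 1), pow_mul, ha3, hb3]
    rw [h1] at this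
    nlinarith [le_self_pow₀ (show (1 : ℝ) ≤ 1 + ε by linarith) (Nat.add_one_ne_zero n),
      mul_pos (pow_pos hV n) hW]
  have hL : zon (l • g) = l • zon g := zon_smul' g l
  have hLvol : volume.real (zon (l • g)) = volume.real K := by
    rw [hL, measureReal_def, Measure.addHaar_smul_of_nonneg volume hl0.le, ENNReal.toReal_mul,
      ENNReal.toReal_ofReal (by positivity), ← measureReal_def, Module.finrank_pi, Fintype.card_fin,
      hle]
  have hLB : Body (zon (l • g)) := by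
    refine hL ▸ ⟨hg.1.smul l, hg.2.1.smul l, ?_⟩
    rw [interior_smul₀ hl0.ne']
    exact ⟨0, hg.2.2, smul_zero l⟩
  have hmx : mixed K (l • g) = l * mixed K g := by
    simp only [mixed, Pi.smul_apply, pA_smul hK hl0.le, ← Finset.mul_sum]
    ring
  have hup : volume.real (K + zon (l • g)) ≤ volume.real K * (2 + ε) ^ (n + 1) := by
    refine (vol_add_le hK (l • g) ha0.le ha3).trans ?_
    rw [hmx, ← ha3, ← mul_pow]
    refine pow_le_pow_left₀ (by have := mixed_nonneg hK g; positivity) ?_ _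
    have : l * mixed K g / a ^ n ≤ (1 + ε) * a := by
      rw [div_le_iff₀ (by positivity)]
      calc l * mixed K g ≤ l * ((1 + ε) * (a ^ n * b)) := mul_le_mul_of_nonneg_left hm hl0.le
        _ = (1 + ε) * a * a ^ n := by rw [hl]; field_simp
    linarith
  have Ap := pA_pos hK hu
  have Bp := pA_pos hLB hu
  have hB : pA (zon (l • g)) u = l ^ n * pA (zon g) u := by
    rw [hL, pA_dilate hg.1 hg.2.1 hl0.le]
  have hbn := (bonnesen hn hK hLB hu).trans hup
  rw [hLvol] at hbn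
  rw [← hB]
  refine ratio_near hn ht0 ht1 ht Ap Bp (le_of_mul_le_mul_left ?_ hV)
  refine le_trans (le_of_eq ?_) hbn
  ring

end

end Vale.Agent.P237.Gen
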